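import Vale.Agent.P216CY.Cyl
import Vale.Agent.P216CP.NB
import Vale.Agent.P216B.Top

/-!
# P216CY: the translation flow of a split metric
-/

open scoped Manifold ContDiff Topology
open Set Filter

set_option maxSynthPendingDepth 3
set_option linter.unusedSectionVars false

noncomputable section

namespace Vale.Agent.P216CY

open Vale.Agent.P219.RG Vale.Agent.P216R Vale.Agent.P216CP
open Vale.Agent.P210.R2.H53 (gradG)
open Vale.Agent.P216DC (Spl)

section chart

variable {G : E3 → Bil E3} {V : Set E3} {f : E3 → ℝ} {u : E3}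

theorem Par.geo (h : Par G f V) {c : ℝ → E3} {t : ℝ}
    (hc : ∀ᶠ s in 𝓝 t, c s ∈ V ∧ DifferentiableAt ℝ c s) (hc' : DifferentiableAt ℝ (deriv c) t)
    (hg : deriv (deriv c) t = -chris G (c t) (deriv c t) (deriv c t)) {F : ℝ → ℝ}
    (hF : F =ᶠ[𝓝 t] fun s => f (c s)) :
    HasDerivAt F (fderiv ℝ f (c t) (deriv c t)) t ∧ HasDerivAt (deriv F) 0 t := by
  have h1 : ∀ᶠ s in 𝓝 t, HasDerivAt F (fderiv ℝ f (c s) (deriv c s)) s := by
    filter_upwards [hc, hF.eventually_nhds] with s a b using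
      ((dAt h.met h.sm a.1).comp_hasDerivAt s a.2.hasDerivAt).congr_of_eventuallyEq b
  obtain ⟨hu, hd⟩ := hc.self_of_nhds
  refine ⟨h1.self_of_nhds, HasDerivAt.congr_deriv (HasDerivAt.congr_of_eventuallyEq
    ((((d2At h.met h.sm hu).differentiableAt (by simp)).hasFDerivAt.comp_hasDerivAt t
      hd.hasDerivAt).clm_apply hc'.hasDerivAt) (h1.mono fun s a => a.deriv)) ?_⟩
  simp [hg, h.hes _ hu]

/-- the flow of a parallel gradient is isometric -/
theorem Par.iso_core (h : Par G f V) {S : ℝ × E3 → E3} {t : ℝ} (hS : ContDiffAt ℝ 2 S (t, u))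
    (hV : S (t, u) ∈ V) (hode : ∀ᶠ p in 𝓝 ((t, u) : ℝ × E3),
      HasDerivAt (fun s => S (s, p.2)) (gradG G f (S p)) p.1) (v w : E3) : HasDerivAt
      (fun s => G (S (s, u)) (fderiv ℝ S (s, u) (0, v)) (fderiv ℝ S (s, u) (0, w))) 0 t := by
  have d := lin_ode hS ((contDiffAt_grad h.met h.sm hV).differentiableAt (by simp)) hode
  refine (((HasFDerivAt.comp_hasDerivAt (f := fun s => S (s, u)) t
    (h.met.differentiableAt hV).hasFDerivAt hode.self_of_nhds).clm_apply (d v)).clm_apply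
      (d w)).congr_deriv ?_
  simp [h.d_grad hV, h.met.chris_compat hV, h.met.chris_symm hV (gradG G f _)]

/-- the gradient does not depend on time -/
theorem grad_flow {G : ℝ → E3 → Bil E3} {I : Set ℝ} (h : RF G I V) (hI : Convex ℝ I)
    (hp : ∀ t ∈ I, Par (G t) f V) (h1 : ∀ t ∈ I, ∀ u ∈ V, fderiv ℝ f u (gradG (G t) f u) = 1)
    {s t : ℝ} (hs : s ∈ I) (ht : t ∈ I) (hu : u ∈ V) : gradG (G t) f u = gradG (G s) f u := by
  obtain ⟨v, v1, v2⟩ := (Submodule.ne_bot_iff _).1 (LinearMap.ker_ne_bot_of_finrank_lt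
    (f := (fderiv ℝ f u : E3 →ₗ[ℝ] ℝ)) (by simp))
  have v0 : fderiv ℝ f u v = 0 := v1
  have p : ∀ t ∈ I, 0 < G t u v v := fun t ht => h.pos t ht u hu v v2
  have := const_of (y := fun t => (G t u v v)⁻¹ • (G t u - sqd f u)) hI (fun t ht =>
    (((((h.eqn_model ht hu).clm_apply (hasDerivWithinAt_const t I v)).clm_apply
      (hasDerivWithinAt_const t I v)).inv (p t ht).ne').smul
      ((h.eqn_model ht hu).sub_const _)).congr_deriv (by
        have := (p t ht).ne'
        simp only [(hp t ht).ric hu (h1 t ht u hu), map_zero, add_zero, smul_apply, sub_apply,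
          sqd_apply, v0, smul_smul, ← add_smul, smul_eq_mul, Pi.inv_apply]
        rw [smul_eq_zero_of_left]
        field_simp
        ring)) hs ht
  refine (hp t ht).met.ext_of hu fun w => ?_
  have e := congrArg (fun B : Bil E3 => B (gradG (G s) f u) w) this
  simp only [smul_apply, sub_apply, sqd_apply, h1 s hs u hu, G_grad (hp s hs).met hu, smul_eq_mul,
    one_mul, sub_self, mul_zero, mul_eq_zero, inv_eq_zero, (p t ht).ne', false_or] at e
  rw [G_grad (hp t ht).met hu, sub_eq_zero.1 e]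

end chart

variable {M : Type} [TopologicalSpace M] [ChartedSpace E3 M] [IsManifold 𝓘(ℝ, E3) ∞ M]
  {g k : Ten E3 M} {U : Set M} {b : M → ℝ} {a c x : M} {u : E3} {γ : ℝ → M} {J : Set ℝ} {s t : ℝ}

theorem spl_par (hg : Met g U) (hb : Spl g U b) (a : M) :
    Par (co g a) (rd E3 b a) (dom E3 a U) ∧ ∀ u ∈ dom E3 a U,
      fderiv ℝ (rd E3 b a) u (gradG (co g a) (rd E3 b a) u) = 1 :=
  par_comap hg hb ((ld_symm a).mono (isOpen_dom a hg.isOpen) inter_subset_left) fun _ hu => hu.2

theorem spl_geo (hg : Met g U) (hb : Spl g U b) (hγ : IsGeo g U γ J) (hJ : IsOpen J) (ht : t ∈ J)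
    (ha : γ t ∈ (chartAt E3 a).source) : HasDerivAt (fun s => b (γ s))
      (fderiv ℝ (rd E3 b a) (cc γ a t) (deriv (cc γ a) t)) t ∧
      HasDerivAt (deriv fun s => b (γ s)) 0 t := by
  have he := eventually_source (E := E3) (hγ.contAt hJ ht) ha
  exact (spl_par hg hb a).1.geo (c := cc γ a) (by
    filter_upwards [hJ.mem_nhds ht, he] with r p q using ⟨hγ.cc_mem p q, (hγ.eqn _ r p q).1⟩)
    (hγ.eqn _ t ht ha).2.1 (hγ.eqn _ t ht ha).2.2
    (he.mono fun r q => by simp only [rd, cc, Function.comp_apply, (chartAt E3 a).left_inv q])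

/-- the height is affine along geodesics -/
theorem spl_aff (hg : Met g U) (hb : Spl g U b) (hγ : IsGeo g U γ J) (hJ : IsOpen J)
    (hp : IsPreconnected J) (h0 : (0 : ℝ) ∈ J) (ht : t ∈ J) :
    b (γ t) = b (γ 0) + deriv (fun s => b (γ s)) 0 * t := by
  have k := fun s (hs : s ∈ J) => spl_geo hg hb hγ hJ hs (mem_chart_source E3 _)
  simpa using quad hJ hp h0 (fun s hs => ⟨(k s hs).1.differentiableAt, (k s hs).2⟩) ht

theorem spl_ric (hg : Met g U) (hb : Spl g U b) (hx : x ∈ U) (v : E3) : Ric g x v v =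
    Sc g x / 2 * (g x v v - fderiv ℝ (rd E3 b x) (pt E3 x) v ^ 2) := by
  have h := spl_par hg hb x
  rw [Ric, h.1.ric (pt_mem_dom hx) (h.2 _ (pt_mem_dom hx)), co_pt, sq]
  rfl

/-- a complete split metric -/
structure Spc (g : Ten E3 M) (U : Set M) (b : M → ℝ) : Prop where
  met : Met g U
  hs : Hs U
  cpl : Cpl g U
  spl : Spl g U b

/-- the translation by `s` -/
def tr (g : Ten E3 M) (U : Set M) (b : M → ℝ) (s : ℝ) (x : M) : M := ray g U x (grad g b x) s

namespace Spc

variable (h : Spc g U b)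
include h

theorem d_grad (hx : x ∈ U) : fderiv ℝ (rd E3 b x) (pt E3 x) (grad g b x) = 1 :=
  (spl_par h.met h.spl x).2 _ (pt_mem_dom hx)

theorem unit (hx : x ∈ U) : g x (grad g b x) (grad g b x) = 1 := by
  rw [← h.d_grad hx, ← G_grad (h.met.isMetricOn x) (pt_mem_dom hx), co_pt]
  rfl

theorem life (hx : x ∈ U) (s : ℝ) : s ∈ Life g U x (grad g b x) :=
  mem_Life_of_cpt h.met h.hs (h.cpl.cpt hx _) hx (lt_add_one _)

theorem geo (hx : x ∈ U) : IsGeo g U (fun s => tr g U b s x) univ :=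
  (isGeo_ray h.met h.hs).mono fun s _ => h.life hx s

theorem mem (hx : x ∈ U) (s : ℝ) : tr g U b s x ∈ U := (h.geo hx).mem s trivial

theorem zero (x : M) : tr g U b 0 x = x := ray_zero h.met h.hs

theorem ed_le (hx : x ∈ U) (s : ℝ) : ed g U x (tr g U b s x) ≤ ENNReal.ofReal |s| := by
  simpa [h.unit hx, tr] using ed_ray_le' h.met h.hs (h.life hx s)

theorem val (hx : x ∈ U) (s : ℝ) : b (tr g U b s x) = b x + s := by
  have h1 := (spl_geo h.met h.spl (h.geo hx) isOpen_univ (mem_univ 0) (mem_chart_source E3 _)).1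
  have h2 : deriv (cc _ _) 0 = grad g b x := dv_ray_zero h.met h.hs hx
  rw [spl_aff h.met h.spl (h.geo hx) isOpen_univ isPreconnected_univ trivial trivial, h1.deriv]
  erw [h2]
  simp only [cc, h.zero]
  rw [show chartAt E3 x x = pt E3 x from rfl, h.d_grad hx, one_mul]

theorem der (hx : x ∈ U) (ha : tr g U b s x ∈ (chartAt E3 a).source) :
    deriv (cc (fun s => tr g U b s x) a) s =
      gradG (co g a) (rd E3 b a) (chartAt E3 a (tr g U b s x)) := by
  have hG := h.geo hx
  have hu := hG.cc_mem (mem_univ s) ha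
  have p := spl_par h.met h.spl a
  have h1 := (spl_geo h.met h.spl hG isOpen_univ (mem_univ s) ha).1.unique
    (((hasDerivAt_id s).const_add (b x)).congr_of_eventuallyEq (Eventually.of_forall (h.val hx)))
  have h2 := sp_chart (g := g) (hG.contAt isOpen_univ trivial) ha (hG.eqn a s trivial ha).1
  rw [show sp g (fun s => tr g U b s x) s = 1 from
    (sp_ray h.met h.hs (h.life hx s)).trans (h.unit hx)] at h2
  refine sub_eq_zero.1 (p.1.met.eq_zero hu ?_)
  change co g a _ (_ - gradG _ _ (cc (fun s => tr g U b s x) a s))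
    (_ - gradG _ _ (cc (fun s => tr g U b s x) a s)) = 0
  simp only [map_sub, sub_apply, ← h2, p.1.met.symm _ hu _ (gradG _ _ _), G_grad p.1.met hu, h1,
    p.2 _ hu, sub_self]

theorem add (hx : x ∈ U) (s t : ℝ) : tr g U b t (tr g U b s x) = tr g U b (t + s) x := by
  have := ((h.geo hx).eq_ray h.met h.hs isOpen_univ ordConnected_univ (mem_univ s)
    (mem_univ (t + s))).2
  rwa [dv, h.der hx (mem_chart_source E3 _)] at this

theorem chart (hu : u ∈ dom E3 a U) (s : ℝ) :
    s ∈ Tm g U a (u, gradG (co g a) (rd E3 b a) u) ∧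
      P216CP.geo g U a (u, gradG (co g a) (rd E3 b a) u) s = tr g U b s ((chartAt E3 a).symm u) := by
  have h0 : tr g U b 0 ((chartAt E3 a).symm u) ∈ (chartAt E3 a).source := by
    rw [h.zero]; exact (chartAt E3 a).map_target hu.1
  have h1 := (h.geo hu.2).sol isOpen_univ ordConnected_univ (mem_univ 0) h0 1
  simp only [stt, h.der hu.2 h0, cc, h.zero, (chartAt E3 a).right_inv hu.1, one_smul] at h1
  exact ⟨h1.subset trivial, (h1.geo_eq h.met h.hs trivial).trans (by simp)⟩

theorem pair (hu : u ∈ dom E3 a U) (s : ℝ) : ContDiffAt ℝ ∞ (fun p : ℝ × E3 =>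
    ((p.1, (p.2, gradG (co g a) (rd E3 b a) p.2)) : ℝ × (E3 × E3))) (s, u) :=
  contDiffAt_fst.prodMk (contDiffAt_snd.prodMk (ContDiffAt.comp (s, u)
    (contDiffAt_grad (h.met.isMetricOn a) (spl_par h.met h.spl a).1.sm hu) contDiffAt_snd))

theorem ev_dom (hu : u ∈ dom E3 a U) (s : ℝ) : ∀ᶠ p : ℝ × E3 in 𝓝 (s, u), p.2 ∈ dom E3 a U :=
  continuousAt_snd.eventually ((isOpen_dom a h.met.isOpen).mem_nhds hu)

theorem cont (hu : u ∈ dom E3 a U) (s : ℝ) :
    ContinuousAt (fun p : ℝ × E3 => tr g U b p.1 ((chartAt E3 a).symm p.2)) (s, u) :=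
  ((good_of_mem h.met h.hs (h.chart hu s).1).cont.comp_of_eq
    (h.pair hu s).continuousAt rfl).congr ((h.ev_dom hu s).mono fun p hp => (h.chart hp p.1).2)

theorem smooth (hu : u ∈ dom E3 a U)
    (hc : tr g U b s ((chartAt E3 a).symm u) ∈ (chartAt E3 c).source) : ContDiffAt ℝ ∞
      (fun p : ℝ × E3 => chartAt E3 c (tr g U b p.1 ((chartAt E3 a).symm p.2))) (s, u) :=
  (ContDiffAt.comp (g := fun p : ℝ × (E3 × E3) => stt (P216CP.geo g U a p.2) c p.1) (s, u)
    ((good_of_mem h.met h.hs (h.chart hu s).1).smooth c (by rw [(h.chart hu s).2]; exact hc))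
    (h.pair hu s)).fst.congr_of_eventuallyEq
    ((h.ev_dom hu s).mono fun p hp => congrArg (chartAt E3 c) (h.chart hp p.1).2.symm)

theorem sm' (hu : u ∈ dom E3 a U) (s : ℝ) : SM E3 (tr g U b s ∘ (chartAt E3 a).symm) u :=
  contMDiffAt_of_chart ((h.cont hu s).comp (f := fun u => (s, u)) (by fun_prop))
    ((h.smooth hu (mem_chart_source E3 _)).comp (f := fun u => (s, u)) u (by fun_prop))

theorem sm (hx : x ∈ U) (s : ℝ) : SM E3 (tr g U b s) x :=
  (ContMDiffAt.comp (f := chartAt E3 x) x (h.sm' (pt_mem_dom hx) s)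
    (sm_chart (mem_chart_source E3 x))).congr_of_eventuallyEq
    (((chartAt E3 x).eventually_left_inverse (mem_chart_source E3 x)).mono fun _ hy =>
      congrArg _ hy.symm)

theorem ld (s : ℝ) : LD E3 (tr g U b s) U :=
  ld_of_left_inv h.met.isOpen (fun _ hx => (h.sm hx s).contMDiffWithinAt) (k := tr g U b (-s))
    (fun _ hx => (h.sm (h.mem hx s) _).md) fun x hx => by rw [h.add hx, neg_add_cancel, h.zero]

/-- the translations are isometries of every metric with the same parallel gradient -/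
theorem iso (hk : Met k U) (hb : Spl k U b) (he : ∀ a, ∀ u ∈ dom E3 a U,
    gradG (co k a) (rd E3 b a) u = gradG (co g a) (rd E3 b a) u) (hx : x ∈ U) (s : ℝ) :
    comap (tr g U b s) k x = k x := by
  have hu := pt_mem_dom (E := E3) hx
  have e : ∀ s, comap (tr g U b s) k x = comap (tr g U b s ∘ (chartAt E3 x).symm) k (pt E3 x) :=
    fun s => by rw [← co_comap k hu.1 (by rw [symm_pt]; exact (h.sm hx s).md), co_pt]
  ext v w
  have d : ∀ s, HasDerivAt (fun s => comap (tr g U b s) k x v w) 0 s := fun s => by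
    have hc := mem_chart_source E3 (tr g U b s ((chartAt E3 x).symm (pt E3 x)))
    set c := tr g U b s ((chartAt E3 x).symm (pt E3 x))
    have e1 := ((h.cont hu s).eventually ((chartAt E3 c).open_source.mem_nhds hc)).and
      (h.ev_dom hu s)
    refine ((spl_par hk hb c).1.iso_core ((h.smooth hu hc).of_le two_le_infty)
      (P216R.mem_dom hc (h.mem hu.2 s)) (e1.mono fun p hp => ?_) v w).congr_of_eventuallyEq ?_
    · rw [he _ _ (P216R.mem_dom hp.1 (h.mem hp.2.2 _)), ← h.der hp.2.2 hp.1]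
      exact (h.geo hp.2.2).hasDerivAt_cc trivial hp.1
    · filter_upwards [(Continuous.prodMk_left (pt E3 x)).continuousAt.eventually e1] with r hr
      have a4 : HasFDerivAt (chartAt E3 c ∘ tr g U b r ∘ (chartAt E3 x).symm) _ (pt E3 x) :=
        ((h.smooth hu hr.1).differentiableAt (by simp)).hasFDerivAt.comp _
          (hasFDerivAt_prodMk_right r (pt E3 x))
      rw [e, comap_eq k (h.sm' hu r).md hr.1, comap_model, a4.fderiv]
      rfl
  rw [is_const_of_deriv_eq_zero (fun s => (d s).differentiableAt) (fun s => (d s).deriv) s 0,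
    show tr g U b 0 = id from funext h.zero, P216R.comap_id]

theorem li (hk : Met k U) (hb : Spl k U b) (he : ∀ a, ∀ u ∈ dom E3 a U,
    gradG (co k a) (rd E3 b a) u = gradG (co g a) (rd E3 b a) u) (hx : x ∈ U) (s : ℝ) :
    LI k k (tr g U b s) x :=
  ⟨⟨U, hk, h.mem hx s⟩, ⟨U, h.ld s, hx⟩, (hk.isOpen.eventually_mem hx).mono fun _ hy =>
    (h.iso hk hb he hy s).symm⟩

end Spc

theorem grad_rf {g : ℝ → Ten E3 M} {I : Set ℝ} (h : RF g I U) (hI : Convex ℝ I)
    (hb : ∀ t ∈ I, Spl (g t) U b) (hs : s ∈ I) (ht : t ∈ I) (a : M) (u : E3) (hu : u ∈ dom E3 a U) :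
    gradG (co (g t) a) (rd E3 b a) u = gradG (co (g s) a) (rd E3 b a) u :=
  grad_flow (h.co a) hI (fun t ht => (spl_par (h.met ht) (hb t ht) a).1)
    (fun t ht => (spl_par (h.met ht) (hb t ht) a).2) hs ht hu

end Vale.Agent.P216CY
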