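import Vale.Agent.P216R.Defs

/-!
# P216CY: the conformal change by a function with parallel gradient
-/

open scoped ContDiff Topology
open Set

set_option maxSynthPendingDepth 3
set_option linter.unusedSectionVars false

noncomputable section

namespace Vale.Agent.P216CY

open Vale.Agent.P219.RG Vale.Agent.P216R
open Vale.Agent.P210.R2.H53 (gradG)

variable {E : Type} [NormedAddCommGroup E] [NormedSpace ℝ E] [FiniteDimensional ℝ E]
  {G : E → Bil E} {U : Set E} {f : E → ℝ} {u : E}

/-- the conformal metric `e^(2 f) G` -/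
def cf (f : E → ℝ) (G : E → Bil E) (u : E) : Bil E := Real.exp (2 * f u) • G u

/-- the difference of the connections -/
def dS (G : E → Bil E) (f : E → ℝ) (u v w : E) : E :=
  fderiv ℝ f u v • w + fderiv ℝ f u w • v - G u v w • gradG G f u

theorem ev (h : IsMetricOn G U) (hu : u ∈ U) : ∀ᶠ y in 𝓝 u, y ∈ U := h.mem_nhds hu

theorem G_grad (h : IsMetricOn G U) (hu : u ∈ U) (w : E) :
    G u (gradG G f u) w = fderiv ℝ f u w := by
  rw [gradG, (h.isInvertible hu).self_apply_inverse]

theorem met_cf (h : IsMetricOn G U) (hf : ContDiffOn ℝ ∞ f U) : IsMetricOn (cf f G) U :=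
  ⟨h.isOpen, (contDiffOn_const.mul hf).exp.smul h.smooth,
    fun u hu v w => by simp only [cf, smul_apply, h.symm u hu v w],
    fun u hu v hv => mul_pos (Real.exp_pos _) (h.pos u hu v hv)⟩

theorem dAt (h : IsMetricOn G U) (hf : ContDiffOn ℝ ∞ f U) (hu : u ∈ U) :
    HasFDerivAt f (fderiv ℝ f u) u :=
  ((hf.contDiffAt (h.mem_nhds hu)).differentiableAt (by simp)).hasFDerivAt

theorem d2At (h : IsMetricOn G U) (hf : ContDiffOn ℝ ∞ f U) (hu : u ∈ U) :
    ContDiffAt ℝ ∞ (fderiv ℝ f) u := (hf.contDiffAt (h.mem_nhds hu)).fderiv_right (by simp)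

theorem chris_cf (h : IsMetricOn G U) (hf : ContDiffOn ℝ ∞ f U) (hu : u ∈ U) (v w : E) :
    chris (cf f G) u v w = chris G u v w + dS G f u v w := by
  have h1 : HasFDerivAt (cf f G) _ u :=
    ((dAt h hf hu).const_mul 2).exp.smul (h.differentiableAt hu).hasFDerivAt
  refine (met_cf h hf).ext_of hu fun z => ?_
  rw [(met_cf h hf).chris_spec hu, h1.fderiv]
  simp only [cf, dS, add_apply, smul_apply, sub_apply, map_add, map_sub, map_smul,
    ContinuousLinearMap.smulRight_apply, smul_eq_mul, h.chris_spec hu, G_grad h hu]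
  ring

theorem contDiffAt_grad (h : IsMetricOn G U) (hf : ContDiffOn ℝ ∞ f U) (hu : u ∈ U) :
    ContDiffAt ℝ ∞ (gradG G f) u :=
  (((h.isInvertible hu).contDiffAt_map_inverse).comp u (h.contDiffAt hu)).clm_apply (d2At h hf hu)

/-- `f` has parallel gradient -/
structure Par (G : E → Bil E) (f : E → ℝ) (U : Set E) : Prop where
  met : IsMetricOn G U
  sm : ContDiffOn ℝ ∞ f U
  hes : ∀ u ∈ U, ∀ v w, fderiv ℝ (fderiv ℝ f) u v w = fderiv ℝ f u (chris G u v w)

namespace Par

variable (h : Par G f U)
include h

theorem d_grad (hu : u ∈ U) (x : E) :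
    fderiv ℝ (gradG G f) u x = -chris G u x (gradG G f u) := by
  refine h.met.ext_of hu fun w => ?_
  have h1 := (((h.met.differentiableAt hu).hasFDerivAt.clm_apply
    ((contDiffAt_grad h.met h.sm hu).differentiableAt (by simp)).hasFDerivAt).clm_apply
      (hasFDerivAt_const w u))
  have h2 := ((d2At h.met h.sm hu).differentiableAt (by simp)).hasFDerivAt.clm_apply
    (hasFDerivAt_const w u)
  have h3 := DFunLike.congr_fun (h1.unique (h2.congr_of_eventuallyEq
    ((ev h.met hu).mono fun y hy => G_grad h.met hy w))) x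
  simp only [add_apply, ContinuousLinearMap.comp_apply, ContinuousLinearMap.flip_apply,
    zero_apply, map_zero, zero_add, h.met.chris_compat hu, h.hes u hu, G_grad h.met hu] at h3
  simp only [map_neg, neg_apply]
  linarith

theorem curv_grad (hu : u ∈ U) (x y : E) : curv G u x y (gradG G f u) = 0 := by
  have hX := contDiffAt_grad h.met h.sm hu
  have hd := ((hX.fderiv_right (m := ∞) (by simp)).differentiableAt (by simp)).hasFDerivAt
  have e : ∀ a b, fderiv ℝ (fderiv ℝ (gradG G f)) u a b =
      -(fderiv ℝ (chrisB G) u a b (gradG G f u) -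
        chrisB G u b (chrisB G u a (gradG G f u))) := fun a b => by
    have h1 := ((((h.met.differentiableAt_chrisB hu).hasFDerivAt.clm_apply
      (hasFDerivAt_const b u)).clm_apply (hX.differentiableAt (by simp)).hasFDerivAt)).neg
    have h3 := DFunLike.congr_fun ((hd.clm_apply (hasFDerivAt_const b u)).unique
      (h1.congr_of_eventuallyEq ((ev h.met hu).mono fun y hy =>
        (h.d_grad hy b).trans (by simp only [Pi.neg_apply, chrisB_apply])))) a
    simp only [add_apply, ContinuousLinearMap.comp_apply, ContinuousLinearMap.flip_apply,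
      zero_apply, map_zero, zero_add, neg_apply, h.d_grad hu, map_neg, ← chrisB_apply,
      neg_zero] at h3
    rw [h3]; abel
  have hs := (hX.isSymmSndFDerivAt
    (by simpa only [minSmoothness_of_isRCLikeNormedField] using two_le_infty)).eq x y
  rw [e, e] at hs
  rw [h.met.curv_eq hu, ← sub_eq_zero.2 (neg_injective hs)]
  abel

theorem d_dS (hu : u ∈ U) (x y z : E) : HasFDerivAt (fun p => dS G f p y z)
    (fderiv ℝ (fun p => dS G f p y z) u) u ∧ fderiv ℝ (fun p => dS G f p y z) u x =
      dS G f u (chris G u x y) z + dS G f u y (chris G u x z) - chris G u x (dS G f u y z) := by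
  have h2 := fun w => ((d2At h.met h.sm hu).differentiableAt (by simp)).hasFDerivAt.clm_apply
    (hasFDerivAt_const w u)
  have h1 := (((h2 y).smul_const z).add ((h2 z).smul_const y)).sub
    ((((h.met.differentiableAt hu).hasFDerivAt.clm_apply (hasFDerivAt_const y u)).clm_apply
      (hasFDerivAt_const z u)).smul
      ((contDiffAt_grad h.met h.sm hu).differentiableAt (by simp)).hasFDerivAt)
  have h3 : HasFDerivAt (fun p => dS G f p y z) _ u := h1
  refine ⟨h3.differentiableAt.hasFDerivAt, ?_⟩
  rw [h3.fderiv]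
  simp only [dS, add_apply, sub_apply, ContinuousLinearMap.comp_apply,
    ContinuousLinearMap.flip_apply, zero_apply, map_zero, zero_add, smul_apply,
    ContinuousLinearMap.smulRight_apply, h.d_grad hu, h.met.chris_compat hu, h.hes u hu,
    ← chrisB_apply, map_add, map_sub, map_smul, add_smul, smul_neg]
  abel

theorem curv_cf (hu : u ∈ U) (x y z : E) : curv (cf f G) u x y z =
    curv G u x y z + dS G f u x (dS G f u y z) - dS G f u y (dS G f u x z) := by
  have e : ∀ x y, fderiv ℝ (fun p => chris (cf f G) p y z) u x =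
      fderiv ℝ (fun p => chris G p y z) u x + fderiv ℝ (fun p => dS G f p y z) u x := fun x y => by
    rw [← add_apply, ← (((h.met.contDiffAt_chris hu y z).differentiableAt
      (by simp)).hasFDerivAt.add (h.d_dS hu x y z).1).fderiv]
    congr 1
    exact Filter.EventuallyEq.fderiv_eq ((ev h.met hu).mono
      fun p hp => chris_cf h.met h.sm hp y z)
  have l : ∀ a b c, dS G f u a (b + c) = dS G f u a b + dS G f u a c := fun a b c => by
    simp only [dS, map_add, smul_add, add_smul]; abel
  simp only [curv, e, (h.d_dS hu _ _ _).2, chris_cf h.met h.sm hu, l, h.met.chris_symm hu y x]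
  simp only [← chrisB_apply, map_add]
  abel

end Par

end Vale.Agent.P216CY
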