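import Vale.Agent.P216CY.Main
import Vale.Agent.P216R.Flow
import Vale.Agent.P216FL.Ori
import Vale.Agent.P216SG.Defs
import Vale.Agent.P216DC.Defs
import Mathlib.Analysis.Normed.Module.Connected

/-!
# P216CY: round cylinders, necks, and the shrinking cylinder
-/

open scoped Manifold ContDiff Topology InnerProductSpace
open Set Filter

set_option maxSynthPendingDepth 3
set_option linter.unusedSectionVars false

noncomputable section

namespace Vale.Agent.P216CY

open Vale.Agent.P219.RG Vale.Agent.P216R Vale.Agent.P216CP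
open Vale.Agent.P210.R2.H53 (gradG)
open Vale.Agent.P216SG (euc cyl Neck Cen anl)
open Vale.Agent.P216DC (Spl KS RND)
open Vale.Agent.P216FL (Ori)

section chart

variable {G H : E3 → Bil E3} {V : Set E3} {f : E3 → ℝ} {u : E3}

theorem Par.d_affine (h : Par G f V) (hu : u ∈ V) (k c : ℝ) :
    fderiv ℝ (fun u => k * f u + c) u = k • fderiv ℝ f u :=
  (((dAt h.met h.sm hu).const_mul k).add_const c).fderiv

theorem Par.affine (h : Par G f V) (k c : ℝ) : Par G (fun u => k * f u + c) V :=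
  ⟨h.met, (contDiffOn_const.mul h.sm).add contDiffOn_const, fun u hu v w => by
    rw [((((d2At h.met h.sm hu).differentiableAt (by simp)).hasFDerivAt.const_smul k
      ).congr_of_eventuallyEq ((ev h.met hu).mono fun y hy => h.d_affine hy k c)).fderiv,
      h.d_affine hu]
    simp [h.hes u hu]⟩

/-- the square of the differential -/
def sqd (f : E3 → ℝ) (u : E3) : Bil E3 := (fderiv ℝ f u).smulRight (fderiv ℝ f u)

theorem sqd_apply (v w : E3) : sqd f u v w = fderiv ℝ f u v * fderiv ℝ f u w := rfl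

theorem Par.ric (h : Par G f V) (hu : u ∈ V) (h1 : fderiv ℝ f u (gradG G f u) = 1) :
    ricG G u = (scG G u / 2) • (G u - sqd f u) := by
  obtain ⟨L, hL, hX⟩ := exists_iso (h.met.symm u hu) (h.met.pos u hu) (X := gradG G f u)
    (p := eb 2) (by rw [G_grad h.met hu, h1]; simp [eb])
  have e : ∀ a, fderiv ℝ f u a = L.symm a 2 := fun a => by
    rw [← G_grad h.met hu, ← hX, h.met.symm u hu, hL.coord]
  ext v w
  rw [ricG_apply, trL_apply, hL.trace]
  simp only [ContinuousLinearMap.flip_apply, curvB_apply h.met hu, smul_apply, sub_apply,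
    h.curv_eq hu hL one_ne_zero (hX.symm.trans (one_smul ℝ _).symm), sqd_apply, e, hL.sum,
    Fin.sum_univ_three, L.symm_apply_apply, smul_eq_mul]
  simp [eb]
  ring

theorem Par.ric_eq (h : Par G f V) (hH : IsMetricOn H V) {l m : ℝ}
    (he : ∀ u ∈ V, H u = l • G u + m • sqd f u) (hu : u ∈ V) : ricG H u = ricG G u := by
  have c : ∀ u ∈ V, chrisB H u = chrisB G u := fun u hu => by
    ext1 v; ext1 w
    have d := ((d2At h.met h.sm hu).differentiableAt (by simp)).hasFDerivAt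
    have e : ∀ z v w, fderiv ℝ H u z v w = l * fderiv ℝ G u z v w + m * (fderiv ℝ f u v *
        fderiv ℝ f u (chris G u z w) + fderiv ℝ f u w * fderiv ℝ f u (chris G u z v)) :=
      fun z v w => by
        rw [← hH.fderiv_apply_apply hu, ((((((h.met.differentiableAt hu).hasFDerivAt.clm_apply
          (hasFDerivAt_const v u)).clm_apply (hasFDerivAt_const w u)).const_mul l).add
          (((d.clm_apply (hasFDerivAt_const v u)).mul (d.clm_apply
            (hasFDerivAt_const w u))).const_mul m)).congr_of_eventuallyEq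
          ((ev h.met hu).mono fun y hy => by rw [he y hy]; rfl)).fderiv]
        simp [h.hes u hu, mul_add]
    refine hH.ext_of hu fun z => ?_
    rw [chrisB_apply, chrisB_apply, hH.chris_spec hu, e, e, e, he u hu]
    simp only [add_apply, smul_apply, smul_eq_mul, sqd_apply, h.met.chris_spec hu,
      h.met.chris_symm hu z, h.met.chris_symm hu w v]
    ring
  simp only [ricG, curvB, c u hu, EventuallyEq.fderiv_eq ((ev h.met hu).mono c)]

theorem const_of {F : Type} [NormedAddCommGroup F] [NormedSpace ℝ F] {y : ℝ → F} {I : Set ℝ}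
    (hI : Convex ℝ I) (h : ∀ t ∈ I, HasDerivWithinAt y 0 I t) {s t : ℝ} (hs : s ∈ I) (ht : t ∈ I) :
    y t = y s := by
  simpa [sub_eq_zero] using hI.norm_image_sub_le_of_norm_hasDerivWithin_le (C := 0) h
    (by simp) hs ht

/-- a split Ricci flow with spatially constant scalar curvature -/
theorem flow_chart {G : ℝ → E3 → Bil E3} {I : Set ℝ} (h : RF G I V) (hI : Convex ℝ I)
    (hp : ∀ t ∈ I, Par (G t) f V) (h1 : ∀ t ∈ I, ∀ u ∈ V, fderiv ℝ f u (gradG (G t) f u) = 1)
    {R : ℝ → ℝ} (hR : ∀ t ∈ I, ∀ u ∈ V, scG (G t) u = R t) {s t : ℝ} (hs : s ∈ I) (ht : t ∈ I)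
    (hu : u ∈ V) : G t u = G s u - ((t - s) * R s) • (G s u - sqd f u) ∧
      0 < 1 - (t - s) * R s ∧ R t * (1 - (t - s) * R s) = R s := by
  obtain ⟨v, v1, v2⟩ := (Submodule.ne_bot_iff _).1 (LinearMap.ker_ne_bot_of_finrank_lt
    (f := (fderiv ℝ f u : E3 →ₗ[ℝ] ℝ)) (by simp))
  have v0 : fderiv ℝ f u v = 0 := v1
  have p : ∀ t ∈ I, 0 < G t u v v := fun t ht => h.pos t ht u hu v v2
  have r : ∀ t ∈ I, ∀ x ∈ V, ricG (G t) x = (R t / 2) • (G t x - sqd f x) := fun t ht x hx => by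
    rw [(hp t ht).ric hx (h1 t ht x hx), hR t ht x hx]
  have a : ∀ t ∈ I, ∀ x ∈ V, ricG (G t) x = ricG (G s) x := fun t ht x hx => by
    refine (hp s hs).ric_eq (hp t ht).met (l := G t u v v / G s u v v)
      (m := 1 - G t u v v / G s u v v) (fun x hx => ?_) hx
    have := const_of (y := fun t => (G t u v v)⁻¹ • (G t x - sqd f x)) hI (fun t ht =>
      (((((h.eqn_model ht hu).clm_apply (hasDerivWithinAt_const t I v)).clm_apply
        (hasDerivWithinAt_const t I v)).inv (p t ht).ne').smul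
        ((h.eqn_model ht hx).sub_const _)).congr_deriv (by
          have := (p t ht).ne'
          simp only [r t ht _ hu, r t ht _ hx, map_zero, add_zero, smul_apply, sub_apply, sqd_apply,
            v0, smul_smul, ← add_smul, smul_eq_mul, Pi.inv_apply]
          rw [smul_eq_zero_of_left]
          field_simp
          ring)) hs ht
    rw [inv_smul_eq_iff₀ (p t ht).ne', smul_smul, smul_sub, ← div_eq_mul_inv] at this
    rw [sub_smul, one_smul, sub_eq_iff_eq_add.1 this]
    abel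
  have b := const_of (y := fun t => G t u + (2 * t) • ricG (G s) u) hI (fun t ht =>
    ((h.eqn_model ht hu).add (((hasDerivWithinAt_id t I).const_mul 2).smul_const _)).congr_deriv
      (by rw [a t ht u hu, ← add_smul]; simp)) hs ht
  have c : G t u = G s u - ((t - s) * R s) • (G s u - sqd f u) := by
    rw [eq_sub_of_add_eq b, r s hs u hu, smul_smul, smul_smul, add_sub_assoc, ← sub_smul,
      sub_eq_add_neg (G s u) (_ • _), ← neg_smul]
    congr 2
    ring
  have d : G t u v v = (1 - (t - s) * R s) * G s u v v := by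
    rw [c]; simp only [sub_apply, smul_apply, sqd_apply, v0, smul_eq_mul]; ring
  have e := congrArg (fun B : Bil E3 => B v v) (a t ht u hu)
  simp only [r t ht u hu, r s hs u hu, sub_apply, smul_apply, sqd_apply, v0, smul_eq_mul, d] at e
  exact ⟨c, (mul_pos_iff_of_pos_right (p s hs)).1 (d ▸ p t ht),
    mul_right_cancel₀ (p s hs).ne' (by linarith)⟩

end chart

variable {M : Type} [TopologicalSpace M] [ChartedSpace E3 M] [IsManifold 𝓘(ℝ, E3) ∞ M]
  {g : Ten E3 M} {U : Set M} {b : M → ℝ} {R : ℝ} {a : M} {p x : E3} {φ : E3 → M} {V : Set E3}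

theorem par_comap (hg : Met g U) (hb : Spl g U b) (hφ : LD E3 φ V) (hm : MapsTo φ V U) :
    Par (comap φ g) (b ∘ φ) V ∧
      ∀ u ∈ V, fderiv ℝ (b ∘ φ) u (gradG (comap φ g) (b ∘ φ) u) = 1 := by
  have s : ∀ x ∈ U, ContDiffAt ℝ ∞ (rd E3 b x) (pt E3 x) := fun x hx =>
    contMDiffAt_iff_rd.1 (hb.smooth.contMDiffAt (hg.isOpen.mem_nhds hx))
  refine ⟨⟨hg.isMetricOn_comap hφ hm, (hb.smooth.comp hφ.smooth hm).contDiffOn,
    fun u hu v w => ?_⟩, fun u hu => ?_⟩
  · have := (li_comap hg hφ hu (hm hu)).hess ((s _ (hm hu)).of_le two_le_infty)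
    rw [hess_model] at this
    rw [← sub_eq_zero, ← hessG_apply]
    exact (DFunLike.congr_fun (DFunLike.congr_fun this v) w).trans
      (by rw [comap_apply, hb.hess _ (hm hu)]; rfl)
  · have d := (s _ (hm hu)).differentiableAt (by simp)
    have := (li_comap hg hφ hu (hm hu)).gam d d
    rw [gam_model, hb.unit _ (hm hu)] at this
    exact this

theorem rnd_of_spl (hg : Met g U) (hH : Hs U) (hc : Cpl g U) (hb : Spl g U b) (hR : 0 < R)
    (hS : ∀ x ∈ U, Sc g x = R) (c : ℝ) : Rnd g U (fun x => √(R / 2) * b x + c) (R / 2) := by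
  have h := fun a => par_comap hg hb ((ld_symm a).mono (isOpen_dom a hg.isOpen) inter_subset_left)
    fun _ hu => hu.2
  refine ⟨hg, hH, hc, half_pos hR, fun a => (h a).1.affine _ c, fun a u hu => ?_,
    fun a u hu => (hg.rd_Sc hu).symm.trans ((hS _ hu.2).trans (by ring))⟩
  have h1 := (h a).1.d_affine hu √(R / 2) c
  have h2 := (h a).2 u hu
  rw [gradG] at h2 ⊢
  refine (congrArg (fun l : E3 →L[ℝ] ℝ => l ((co g a u).inverse l)) h1).trans ?_
  simp only [map_smul, smul_apply, smul_eq_mul]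
  rw [co, h2, mul_one, Real.mul_self_sqrt (half_pos hR).le]

/-- `φ` parametrises `(U, g)` by the round cylinder of scalar curvature `R`, with height `b` -/
structure IsCyl (g : Ten E3 M) (U : Set M) (b : M → ℝ) (R : ℝ) (φ : E3 → M) : Prop where
  ld : LD E3 φ {0}ᶜ
  image : φ '' {0}ᶜ = U
  eq : ∀ x ≠ 0, comap φ g x = R⁻¹ • cyl x
  ht : ∃ c, ∀ x ≠ 0, b (φ x) = √(2 / R) * Real.log ‖x‖ + c
  fib : ∀ x ≠ 0, ∀ y ≠ 0, φ x = φ y → y = x ∨ (y = -x ∧ ∀ z ≠ 0, φ (-z) = φ z)

theorem exists_cyl (hg : Met g U) (hH : Hs U) (hc : Cpl g U) (hU : IsPreconnected U)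
    (hb : Spl g U b) (hR : 0 < R) (hS : ∀ x ∈ U, Sc g x = R) (ha : a ∈ U) (hp : p ≠ 0) :
    ∃ φ, IsCyl g U b R φ ∧ φ p = a := by
  have hK := half_pos hR
  have h := rnd_of_spl hg hH hc hb hR hS (Real.log (R / 2 * ‖p‖ ^ 2) / 2 - √(R / 2) * b a)
  obtain ⟨L, hL⟩ := h.exists_frm ha (p := p) (by
    rw [← Real.exp_log (mul_pos hK (pow_pos (norm_pos_iff.2 hp) 2))]
    congr 1
    rw [Real.log_exp]
    ring)
  obtain ⟨φ, h1, h2, -⟩ := h.exists_dev hL
  refine ⟨φ, ⟨h1.ld, h.surj hU h1, fun x hx => ?_, ⟨√(2 / R) * (Real.log (R / 2) / 2 -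
    (Real.log (R / 2 * ‖p‖ ^ 2) / 2 - √(R / 2) * b a)), fun x hx => ?_⟩,
    fun x hx y hy => h.inj h1 hx hy⟩, h2⟩
  · rw [h1.comap_eq hx, cyl, smul_smul, euc]
    congr 1
    field_simp
  · have h3 := congrArg Real.log (h1.val x hx)
    rw [Real.log_exp, Real.log_mul hK.ne' (pow_pos (norm_pos_iff.2 hx) 2).ne', Real.log_pow] at h3
    have h4 : √(2 / R) * √(R / 2) = 1 := by
      rw [← Real.sqrt_mul (by positivity), show 2 / R * (R / 2) = 1 by field_simp, Real.sqrt_one]
    push_cast at h3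
    linear_combination √(2 / R) / 2 * h3 - b (φ x) * h4

namespace IsCyl

variable (h : IsCyl g U b R φ)
include h

theorem maps : MapsTo φ {0}ᶜ U := fun _ hx => h.image ▸ mem_image_of_mem φ hx

theorem injOn (hO : Ori E3 U) : InjOn φ {0}ᶜ := fun x hx y hy e =>
  ((h.fib x hx y hy e).resolve_right fun k => by
    have := hO.det_pos h.ld h.maps (isConnected_compl_singleton_of_one_lt_rank
      (by rw [← Module.finrank_eq_rank]; simp) 0).isPreconnected (τ := Neg.neg) hx
      (neg_ne_zero.2 hx) (hasFDerivAt_id x).neg.differentiableAt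
      ((isOpen_compl_singleton.eventually_mem hx).mono k.2)
    rw [show fderiv ℝ Neg.neg x = (-1 : ℝ) • ContinuousLinearMap.id ℝ E3 from
      (hasFDerivAt_id x).neg.fderiv.trans (neg_one_smul ℝ _).symm] at this
    rw [ContinuousLinearMap.det, ContinuousLinearMap.toLinearMap_smul, LinearMap.det_smul,
      ContinuousLinearMap.coe_id, LinearMap.det_id, finrank_euclideanSpace_fin] at this
    norm_num at this).symm

theorem neck (hR : 0 < R) (hO : Ori E3 U) {δ : ℝ} (hδ : 0 < δ) : Neck g U φ (√R)⁻¹ δ := by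
  have s : anl δ⁻¹ ⊆ {0}ᶜ := fun x hx => norm_pos_iff.1 ((Real.exp_pos _).trans hx.1)
  refine ⟨inv_pos.2 (Real.sqrt_pos.2 hR), hδ, ⟨h.ld.mono ((isOpen_lt continuous_const
    continuous_norm).inter (isOpen_lt continuous_norm continuous_const)) s, (h.injOn hO).mono s,
    h.maps.mono_left s⟩, fun j _ x hx => ?_⟩
  have : P216SG.dev (√R)⁻¹ (comap φ g) =ᶠ[𝓝 x] fun _ => 0 :=
    (isOpen_compl_singleton.eventually_mem (s hx)).mono fun y hy => by
      have := norm_ne_zero_iff.2 hy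
      rw [P216SG.dev, h.eq y hy, cyl, smul_smul, smul_smul, ← sub_smul, smul_eq_zero_of_left]
      rw [inv_pow, Real.sq_sqrt hR.le]
      field_simp
      ring
  rw [(this.iteratedFDeriv ℝ j).self_of_nhds]
  simpa using hδ.le

end IsCyl

/-- every point of an oriented round cylinder is the centre of necks of every precision -/
theorem cen_of (hg : Met g U) (hH : Hs U) (hc : Cpl g U) (hU : IsPreconnected U) (hO : Ori E3 U)
    (hb : Spl g U b) (hR : 0 < R) (hS : ∀ x ∈ U, Sc g x = R) (ha : a ∈ U) {δ : ℝ} (hδ : 0 < δ) :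
    Cen g U a (√R)⁻¹ δ := by
  obtain ⟨φ, h1, h2⟩ := exists_cyl hg hH hc hU hb hR hS ha (p := eb 0)
    fun h => by simpa [eb] using congrArg (fun z : E3 => z 0) h
  exact ⟨φ, h1.neck hR hO hδ, _, by simp [eb], h2⟩

/-- the axial part of the cylinder metric -/
def axi (x : E3) : Bil E3 := (2 / ‖x‖ ^ 4) • (innerSL ℝ x).smulRight (innerSL ℝ x)

/-- the cylinder of scalar curvature one with the spheres scaled by `s` -/
def scyl (s : ℝ) (x : E3) : Bil E3 := s • cyl x + (1 - s) • axi x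

theorem scyl_apply (s : ℝ) (x v w : E3) : scyl s x v w =
    s * (2 / ‖x‖ ^ 2 * ⟪v, w⟫_ℝ) + (1 - s) * (2 / ‖x‖ ^ 4 * (⟪x, v⟫_ℝ * ⟪x, w⟫_ℝ)) := rfl

theorem scyl_one (x : E3) : scyl 1 x = cyl x := by simp [scyl]

/-- the same chart shows the shrinking cylinder at all times -/
theorem IsCyl.flow {g : ℝ → Ten E3 M} {I : Set ℝ} {s t : ℝ} (h : IsCyl (g s) U b R φ) (hR : 0 < R)
    (hg : RF g I U) (hI : Convex ℝ I) (hb : ∀ t ∈ I, Spl (g t) U b)
    (hS : ∀ t ∈ I, ∀ x ∈ U, ∀ y ∈ U, Sc (g t) x = Sc (g t) y) (hs : s ∈ I) (ht : t ∈ I)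
    (h0 : ∀ x ∈ U, Sc (g s) x = R) : 0 < 1 - (t - s) * R ∧
      (∀ x ∈ U, Sc (g t) x = R / (1 - (t - s) * R)) ∧
      ∀ x ≠ 0, comap φ (g t) x = R⁻¹ • scyl (1 - (t - s) * R) x := by
  have e0 : eb 0 ∈ ({0}ᶜ : Set E3) := fun h => by simpa [eb] using congrArg (fun z : E3 => z 0) h
  have k := fun x hx => flow_chart (hg.comap h.ld h.maps) hI
    (fun t ht => (par_comap (hg.met ht) (hb t ht) h.ld h.maps).1)
    (fun t ht => (par_comap (hg.met ht) (hb t ht) h.ld h.maps).2)
    (R := fun t => Sc (g t) (φ (eb 0))) (fun t ht u hu => by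
      rw [← Sc_model, (li_comap (hg.met ht) h.ld hu (h.maps hu)).Sc]
      exact hS t ht _ (h.maps hu) _ (h.maps e0)) hs ht (u := x) hx
  simp only [h0 _ (h.maps e0)] at k
  refine ⟨(k _ e0).2.1, fun x hx => ?_, fun x hx => ?_⟩
  · rw [eq_div_iff (k _ e0).2.1.ne', hS t ht x hx _ (h.maps e0), (k _ e0).2.2]
  obtain ⟨c, hc⟩ := h.ht
  have hn := norm_ne_zero_iff.2 hx
  have d := ((((hasFDerivAt_id x).norm_sq.log (pow_ne_zero 2 hn)).const_mul
    (√(2 / R) / 2)).add_const c).congr_of_eventuallyEq (f₁ := b ∘ φ)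
    ((isOpen_compl_singleton.eventually_mem hx).mono fun y hy => by
      simp only [Function.comp_apply, hc y hy, id, Real.log_pow]; push_cast; ring)
  have q := Real.mul_self_sqrt (show 0 ≤ 2 / R by positivity)
  rw [(k x hx).1, h.eq x hx]
  ext v w
  simp only [sub_apply, smul_apply, sqd_apply, d.fderiv, scyl_apply, smul_eq_mul, cyl, id,
    show euc v w = ⟪v, w⟫_ℝ from rfl, innerSL_apply_apply, ContinuousLinearMap.comp_apply, ContinuousLinearMap.id_apply,
    nsmul_eq_mul, Nat.cast_ofNat]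
  field_simp at q ⊢
  linear_combination (t - s) * R * ⟪x, v⟫_ℝ * ⟪x, w⟫_ℝ * q

/-- a split kappa solution is the shrinking round cylinder -/
theorem ks_cyl [MeasurableSpace M] [BorelSpace M] (H : RND) {κ : ℝ} {g : ℝ → Ten E3 M} (hκ : 0 < κ)
    (h : KS κ g U) (hb : ∀ t ≤ 0, Spl (g t) U b) (ha : a ∈ U) (hp : p ≠ 0) :
    ∃ φ, IsCyl (g 0) U b (Sc (g 0) a) φ ∧ φ p = a ∧ ∀ t ≤ 0,
      (∀ x ∈ U, Sc (g t) x = Sc (g 0) a / (1 - t * Sc (g 0) a)) ∧
      ∀ x ≠ 0, comap φ (g t) x = (Sc (g 0) a)⁻¹ • scyl (1 - t * Sc (g 0) a) x := by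
  have h1 := H M κ g U b hκ h (hb 0 le_rfl)
  have h2 := h.pos 0 le_rfl a ha
  have h3 := fun x hx => h1 0 le_rfl x hx a ha
  obtain ⟨φ, h4, h5⟩ := exists_cyl (h.rf.met (mem_Iic.2 le_rfl)) h.hs (h.cpl 0 le_rfl) h.conn
    (hb 0 le_rfl) h2 h3 ha hp
  exact ⟨φ, h4, h5, fun t ht => by
    simpa using (h4.flow h2 h.rf (convex_Iic 0) hb h1 (mem_Iic.2 le_rfl) ht h3).2⟩

end Vale.Agent.P216CY
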