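import Vale.Agent.P216CP.Exp
import Vale.Agent.P216R.Met

/-!
# P216CY: the exponential map of a flat metric is a local isometry
-/

open scoped Manifold ContDiff Topology
open Set Filter

set_option maxSynthPendingDepth 3
set_option linter.unusedSectionVars false

noncomputable section

namespace Vale.Agent.P216CY

open Vale.Agent.P219.RG Vale.Agent.P216R Vale.Agent.P216CP

/-- a function with constant second derivative -/
theorem quad {h : ℝ → ℝ} {I : Set ℝ} (hI : IsOpen I) (hp : IsPreconnected I) (h0 : (0 : ℝ) ∈ I)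
    {c : ℝ} (hd : ∀ t ∈ I, DifferentiableAt ℝ h t ∧ HasDerivAt (deriv h) c t) {t : ℝ}
    (ht : t ∈ I) : h t = h 0 + deriv h 0 * t + c / 2 * t ^ 2 := by
  have k : ∀ {F : ℝ → ℝ}, (∀ s ∈ I, HasDerivAt F 0 s) → ∀ s ∈ I, F s = F 0 := fun hF s hs =>
    hI.is_const_of_deriv_eq_zero hp (fun x hx => (hF x hx).differentiableAt.differentiableWithinAt)
      (fun x hx => (hF x hx).deriv) hs h0
  have h1 := k (F := fun s => deriv h s - c * s) fun s hs =>
    ((hd s hs).2.sub ((hasDerivAt_id s).const_mul c)).congr_deriv (by simp)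
  have h2 := k (F := fun s => h s - deriv h 0 * s - c / 2 * s ^ 2) (fun s hs =>
    (((hd s hs).1.hasDerivAt.sub ((hasDerivAt_id s).const_mul _)).sub
      ((hasDerivAt_pow 2 s).const_mul _)).congr_deriv (by
        have := h1 s hs
        norm_num at this ⊢
        linarith)) t ht
  norm_num at h2
  linarith

variable {E : Type} [NormedAddCommGroup E] [NormedSpace ℝ E] [FiniteDimensional ℝ E]

/-- the linearised equation -/
theorem lin_ode {F : Type} [NormedAddCommGroup F] [NormedSpace ℝ F] {X : F → F} {S : ℝ × E → F}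
    {t : ℝ} {v : E} (hS : ContDiffAt ℝ 2 S (t, v)) (hX : DifferentiableAt ℝ X (S (t, v)))
    (hode : ∀ᶠ p in 𝓝 ((t, v) : ℝ × E), HasDerivAt (fun s => S (s, p.2)) (X (S p)) p.1) (w : E) :
    HasDerivAt (fun s => fderiv ℝ S (s, v) (0, w))
      (fderiv ℝ X (S (t, v)) (fderiv ℝ S (t, v) (0, w))) t := by
  have hc : ∀ (τ : ℝ) (z : E), HasDerivAt (fun s : ℝ => ((s, z) : ℝ × E)) (1, 0) τ := fun τ z =>
    (hasDerivAt_id τ).prodMk (hasDerivAt_const τ z)
  have hXt : ∀ᶠ p in 𝓝 ((t, v) : ℝ × E), X (S p) = fderiv ℝ S p (1, 0) := by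
    filter_upwards [hS.eventually (by simp), hode] with p hp hp'
    exact hp'.unique (HasFDerivAt.comp_hasDerivAt (f := fun s : ℝ => ((s, p.2) : ℝ × E)) p.1
      (hp.differentiableAt (by simp)).hasFDerivAt (hc _ _))
  have hD := ((hS.fderiv_right (m := 1) (by norm_num)).differentiableAt (by simp)).hasFDerivAt
  refine ((HasFDerivAt.comp_hasDerivAt (f := fun s : ℝ => ((s, v) : ℝ × E)) t
      hD (hc t v)).clm_apply (hasDerivAt_const t (((0 : ℝ), w) : ℝ × E))).congr_deriv ?_
  have e2 := DFunLike.congr_fun (((hD.clm_apply (hasFDerivAt_const (((1 : ℝ), (0 : E)) : ℝ × E)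
    ((t, v) : ℝ × E))).congr_of_eventuallyEq hXt).unique
      (hX.hasFDerivAt.comp (t, v) (hS.differentiableAt (by simp)).hasFDerivAt)) (0, w)
  simp only [map_zero, add_zero, ContinuousLinearMap.comp_zero, zero_add,
    ContinuousLinearMap.flip_apply, ContinuousLinearMap.comp_apply] at e2 ⊢
  rw [← e2]
  exact (hS.isSymmSndFDerivAt (by simp)).eq _ _

/-- Jacobi fields of a flat metric, in one chart -/
theorem jac_core {G : E → Bil E} {O : Set E} (hG : IsMetricOn G O)
    (hfl : ∀ u ∈ O, ∀ x y z, curv G u x y z = 0) {S : ℝ × E → E × E} {t : ℝ} {v : E}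
    (hS : ContDiffAt ℝ ∞ S (t, v)) (hO : (S (t, v)).1 ∈ O)
    (hode : ∀ᶠ p in 𝓝 ((t, v) : ℝ × E), HasDerivAt (fun s => S (s, p.2)) (geoField G (S p)) p.1)
    (w : E) {h : ℝ → ℝ} (hh : h =ᶠ[𝓝 t] fun s =>
      G (S (s, v)).1 (fderiv ℝ S (s, v) (0, w)).1 (fderiv ℝ S (s, v) (0, w)).1) :
    DifferentiableAt ℝ h t ∧ DifferentiableAt ℝ (deriv h) t ∧ HasDerivAt (deriv (deriv h)) 0 t ∧
      (fderiv ℝ S (t, v) (0, w) = (0, w) → deriv h t = 0 ∧
        deriv (deriv h) t = 2 * G (S (t, v)).1 w w) := by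
  set c : ℝ → E := fun s => (S (s, v)).1 with hc
  set J : ℝ → E := fun s => (fderiv ℝ S (s, v) (0, w)).1 with hJ
  have ct : Tendsto (fun s : ℝ => ((s, v) : ℝ × E)) (𝓝 t) (𝓝 (t, v)) :=
    (Continuous.prodMk_left v).tendsto t
  have h2 : ContDiffAt ℝ 2 S (t, v) := hS.of_le two_le_infty
  have e1 : ∀ᶠ s in 𝓝 t, c s ∈ O ∧ HasDerivAt (fun s => S (s, v)) (geoField G (S (s, v))) s ∧
      HasDerivAt (fun s => fderiv ℝ S (s, v) (0, w))
        (fderiv ℝ (geoField G) (S (s, v)) (fderiv ℝ S (s, v) (0, w))) s := by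
    filter_upwards [ct.eventually (h2.eventually (by simp)), ct.eventually hode.eventually_nhds,
      ct.eventually (hS.continuousAt.fst.eventually (hG.mem_nhds hO))] with s a1 a2 a3
    exact ⟨a3, a2.self_of_nhds,
      lin_ode a1 ((hG.contDiffAt_geoField a3).differentiableAt (by simp)) a2 w⟩
  have e2 : ∀ᶠ s in 𝓝 t, HasDerivAt c (S (s, v)).2 s ∧
      HasDerivAt J (fderiv ℝ S (s, v) (0, w)).2 s := e1.mono fun s a => ⟨a.2.1.fst, by
    have := a.2.2.fst
    rwa [hG.fderiv_geoField (u := c s) a.1] at this⟩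
  have e3 : ∀ᶠ s in 𝓝 t, DifferentiableAt ℝ (deriv c) s ∧
      deriv (deriv c) s = -chris G (c s) (deriv c s) (deriv c s) ∧
      HasDerivAt (deriv J) (-(fderiv ℝ (fun p => chris G p (deriv c s) (deriv c s)) (c s) (J s) +
        (2 : ℝ) • chris G (c s) (deriv c s) (deriv J s))) s := by
    filter_upwards [e1, e2.eventually_nhds] with s a b
    have b1 : HasDerivAt (deriv c) (geoField G (S (s, v))).2 s :=
      HasDerivAt.congr_of_eventuallyEq a.2.1.snd (b.mono fun r hr => hr.1.deriv)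
    have b2 : HasDerivAt (deriv J)
        (fderiv ℝ (geoField G) (S (s, v)) (fderiv ℝ S (s, v) (0, w))).2 s :=
      HasDerivAt.congr_of_eventuallyEq a.2.2.snd (b.mono fun r hr => hr.2.deriv)
    rw [hG.fderiv_geoField (u := c s) a.1] at b2
    rw [b.self_of_nhds.1.deriv, b.self_of_nhds.2.deriv]
    exact ⟨b1.differentiableAt, b1.deriv, b2⟩
  have e4 : ∀ᶠ s in 𝓝 t, c s ∈ O ∧ DifferentiableAt ℝ c s ∧ DifferentiableAt ℝ J s ∧
      DifferentiableAt ℝ (covD G c J) s ∧ covD G c (covD G c J) s = 0 := by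
    filter_upwards [e1, (e2.and e3).eventually_nhds] with s a b
    have := hG.jacobi_of_linearized a.1 (b.mono fun r hr => ⟨hr.1.1.differentiableAt, hr.2.1,
      hr.2.2.1⟩) (b.mono fun r hr => hr.1.2.differentiableAt) b.self_of_nhds.2.2.2
    rw [hfl _ a.1, add_zero] at this
    exact ⟨a.1, b.self_of_nhds.1.1.differentiableAt, b.self_of_nhds.1.2.differentiableAt, this⟩
  have e5 : ∀ᶠ s in 𝓝 t, HasDerivAt h (2 * G (c s) (covD G c J s) (J s)) s := by
    filter_upwards [e4, hh.eventually_nhds] with s a b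
    exact ((hG.hasDerivAt_inner a.1 a.2.1 a.2.2.1 a.2.2.1).congr_of_eventuallyEq b).congr_deriv
      (by rw [hG.symm _ a.1 (J s)]; ring)
  have e6 : ∀ᶠ s in 𝓝 t,
      HasDerivAt (deriv h) (2 * G (c s) (covD G c J s) (covD G c J s)) s := by
    filter_upwards [e4, e5.eventually_nhds] with s a b
    exact (((hG.hasDerivAt_inner a.1 a.2.1 a.2.2.2.1 a.2.2.1).const_mul 2).congr_of_eventuallyEq
      (b.mono fun r hr => hr.deriv)).congr_deriv (by simp [a.2.2.2.2])
  have a := e4.self_of_nhds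
  refine ⟨e5.self_of_nhds.differentiableAt, e6.self_of_nhds.differentiableAt,
    (((hG.hasDerivAt_inner a.1 a.2.1 a.2.2.2.1 a.2.2.2.1).const_mul 2).congr_of_eventuallyEq
      (e6.mono fun r hr => hr.deriv)).congr_deriv (by simp [a.2.2.2.2]), fun h0 => ?_⟩
  have j0 : J t = 0 := congrArg Prod.fst h0
  rw [e5.self_of_nhds.deriv, e6.self_of_nhds.deriv, covD, e2.self_of_nhds.2.deriv, h0, j0,
    ← chrisB_apply]
  simp [hc]

variable {M : Type} [TopologicalSpace M] [ChartedSpace E M] [IsManifold 𝓘(ℝ, E) ∞ M]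
  {g : Ten E M} {U : Set M} {p : M} {v : E}

/-- flat in all charts -/
def Flat (g : Ten E M) (U : Set M) : Prop :=
  ∀ a, ∀ u ∈ dom E a U, ∀ x y z, curv (co g a) u x y z = 0

theorem sm_ray (hg : Met g U) (hH : Hs U) {t : ℝ} (ht : t ∈ Life g U p v) :
    SM E (fun z => ray g U p z t) v :=
  contMDiffAt_of_chart (continuousAt_ray' hg hH ht) (contDiffAt_ray hg hH ht (mem_chart_source E _))

theorem flat_expo' (hg : Met g U) (hH : Hs U) (hf : Flat g U) (hv : v ∈ Dom g U p) (w : E) :
    comap (expo g U p) g v w w = g p w w := by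
  set h : ℝ → ℝ := fun t => comap (fun z => ray g U p z t) g v w w with hh
  have hG := isGeo_ray (p := p) (v := v) hg hH
  have key : ∀ t ∈ Life g U p v, ∀ b, ray g U p v t ∈ (chartAt E b).source → _ := fun t ht b hb =>
    jac_core (met_on hg b) (hf b) (contDiffAt_stt_ray hg hH ht hb) (hG.cc_mem ht hb) (by
      filter_upwards [ev_Life hg hH ht, (continuousAt_ray hg hH ht).eventually
        ((chartAt E b).open_source.mem_nhds hb)] with q a1 a2
      exact (isGeo_ray hg hH).hasDerivAt_stt a1 a2) w (h := h) (by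
      filter_upwards [isOpen_Life.mem_nhds ht, eventually_source (hG.contAt isOpen_Life ht) hb]
        with s a1 a2
      have a3 := ((contDiffAt_stt_ray hg hH a1 a2).differentiableAt (by simp)).hasFDerivAt
      have a4 : HasFDerivAt (chartAt E b ∘ fun z => ray g U p z s) _ v :=
        (a3.comp v (hasFDerivAt_prodMk_right s v)).fst
      simp only [hh, comap_eq g (sm_ray hg hH a1).md a2, comap_model, a4.fderiv]
      rfl)
  have hp := mem_of_Life hv
  have h0 := zero_mem_Life hg hp v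
  have hI := (ordConnected_Life (g := g) (U := U) (p := p) (v := v)).isPreconnected
  have k := fun t ht => key t ht _ (mem_chart_source E _)
  have hs : ray g U p v 0 ∈ (chartAt E p).source := (sol_ray hg hH hp v).src
  obtain ⟨h1, h2⟩ := (key 0 h0 p hs).2.2.2 (by
    have a3 := ((contDiffAt_stt_ray hg hH h0 hs).differentiableAt (by simp)).hasFDerivAt
    have a4 := a3.comp v (hasFDerivAt_prodMk_right (0 : ℝ) v)
    have a5 := DFunLike.congr_fun (a4.unique ((hasFDerivAt_prodMk_right (pt E p) v).congr_of_eventuallyEq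
      (Eventually.of_forall fun z => (sol_ray hg hH hp z).init))) w
    exact a5)
  have h3 := quad (h := h) isOpen_Life hI h0 (c := deriv (deriv h) 0) (fun t ht => ⟨(k t ht).1,
    (k t ht).2.1.hasDerivAt.congr_deriv (isOpen_Life.is_const_of_deriv_eq_zero hI
      (fun x hx => (k x hx).2.2.1.differentiableAt.differentiableWithinAt)
      (fun x hx => (k x hx).2.2.1.deriv) ht h0)⟩) hv
  rw [h1, h2, (sol_ray hg hH hp v).init, co_pt] at h3
  have h4 : h 0 = 0 := by
    have : md E (fun _ : E => p) v = 0 := mfderiv_const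
    simp [hh, ray_zero hg hH, comap_apply, this]
  change h 1 = _
  linarith

/-- the exponential map of a flat metric is a local isometry -/
theorem flat_expo (hg : Met g U) (hH : Hs U) (hf : Flat g U) (hv : v ∈ Dom g U p) :
    comap (expo g U p) g v = g p := by
  ext w z
  have h := flat_expo' hg hH hf hv
  have h1 := h (w + z)
  have h2 := hg.symm p (mem_of_Life hv) w z
  have h3 := hg.symm _ (expo_mem hg hH hv) (md E (expo g U p) v w) (md E (expo g U p) v z)
  simp only [map_add, add_apply, h] at h1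
  simp only [comap_apply] at h1 ⊢
  linarith

end Vale.Agent.P216CY
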