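import Vale.Agent.P216CY.Flat
import Vale.Agent.P216CY.Jac
import Vale.Agent.P216B.Mid

/-!
# P216CY: polar developing charts of the cone
-/

open scoped Manifold ContDiff Topology InnerProductSpace
open Set Filter

set_option maxSynthPendingDepth 3
set_option linter.unusedSectionVars false

noncomputable section

namespace Vale.Agent.P216CY

open Vale.Agent.P219.RG Vale.Agent.P216R Vale.Agent.P216CP
open Vale.Agent.P210.R2.H53 (gradG)

section gen

variable {E : Type} [NormedAddCommGroup E] [NormedSpace ℝ E] [FiniteDimensional ℝ E]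

/-- the conformal factor along geodesics of the cone -/
theorem Par.exp_geo {G : E → Bil E} {U : Set E} {f : E → ℝ} (h : Par G f U) {c : ℝ → E} {t : ℝ}
    (hc : ∀ᶠ s in 𝓝 t, c s ∈ U ∧ DifferentiableAt ℝ c s) (hc' : DifferentiableAt ℝ (deriv c) t)
    (hg : deriv (deriv c) t = -chris (cf f G) (c t) (deriv c t) (deriv c t)) {F : ℝ → ℝ}
    (hF : F =ᶠ[𝓝 t] fun s => Real.exp (2 * f (c s))) :
    HasDerivAt F (2 * (Real.exp (2 * f (c t)) * fderiv ℝ f (c t) (deriv c t))) t ∧
      HasDerivAt (deriv F) (2 * fderiv ℝ f (c t) (gradG G f (c t)) *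
        cf f G (c t) (deriv c t) (deriv c t)) t := by
  have h0 : ∀ᶠ s in 𝓝 t, HasDerivAt (fun s => Real.exp (2 * f (c s)))
      (2 * (Real.exp (2 * f (c s)) * fderiv ℝ f (c s) (deriv c s))) s := hc.mono fun s a =>
    (((dAt h.met h.sm a.1).comp_hasDerivAt s a.2.hasDerivAt).const_mul 2).exp.congr_deriv
      (by simp only [Function.comp_apply]; ring)
  have h1 : ∀ᶠ s in 𝓝 t, HasDerivAt F
      (2 * (Real.exp (2 * f (c s)) * fderiv ℝ f (c s) (deriv c s))) s := by
    filter_upwards [h0, hF.eventually_nhds] with s a b using a.congr_of_eventuallyEq b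
  obtain ⟨hu, hd⟩ := hc.self_of_nhds
  refine ⟨h1.self_of_nhds, HasDerivAt.congr_deriv (HasDerivAt.congr_of_eventuallyEq
    ((h0.self_of_nhds.mul ((((d2At h.met h.sm hu).differentiableAt
      (by simp)).hasFDerivAt.comp_hasDerivAt t hd.hasDerivAt).clm_apply hc'.hasDerivAt)).const_mul 2)
    (h1.mono fun s a => a.deriv)) ?_⟩
  simp only [Function.comp_apply, hg, chris_cf h.met h.sm hu, h.hes _ hu, map_neg, map_add, dS,
    map_sub, map_smul, smul_eq_mul, cf, smul_apply]
  ring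

variable {M : Type} [TopologicalSpace M] [ChartedSpace E M] [IsManifold 𝓘(ℝ, E) ∞ M]

/-- the cone metric -/
def cone (f : M → ℝ) (g : Ten E M) : Ten E M := fun x => Real.exp (2 * f x) • g x

theorem co_cone (f : M → ℝ) (g : Ten E M) (a : M) : co (cone f g) a = cf (rd E f a) (co g a) := rfl

theorem IsGeo.crv {g : Ten E M} {U : Set M} {p : M} {v : E} (hg : Met g U) (hH : Hs U) {t : ℝ}
    (h0 : 0 ≤ t) (ht : t ∈ Life g U p v) : Crv E U (ray g U p v) 0 t := by
  refine ⟨h0, fun s hs => ContMDiffAt.contMDiffWithinAt ?_,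
    fun s hs => (isGeo_ray hg hH).mem s (Icc_subset_Life ht hs)⟩
  have h1 := Icc_subset_Life ht hs
  refine contMDiffAt_of_chart ((isGeo_ray hg hH).contAt isOpen_Life h1) ?_
  exact ((ContDiffAt.comp (f := fun s : ℝ => (s, v)) s
    (contDiffAt_stt_ray hg hH h1 (mem_chart_source E _))
    (contDiffAt_id.prodMk contDiffAt_const)).fst).of_le (by exact_mod_cast le_top)

end gen

variable {M : Type} [TopologicalSpace M] [ChartedSpace E3 M] [IsManifold 𝓘(ℝ, E3) ∞ M]

/-- a complete metric with a parallel gradient of square norm `K` and scalar curvature `2 K` -/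
structure Rnd (g : Ten E3 M) (U : Set M) (f : M → ℝ) (K : ℝ) : Prop where
  met : Met g U
  hs : Hs U
  cpl : Cpl g U
  pos : 0 < K
  par : ∀ a, Par (co g a) (rd E3 f a) (dom E3 a U)
  gam : ∀ a, ∀ u ∈ dom E3 a U, fderiv ℝ (rd E3 f a) u (gradG (co g a) (rd E3 f a) u) = K
  sc : ∀ a, ∀ u ∈ dom E3 a U, scG (co g a) u = 2 * K

/-- the point `a` with the frame `L` corresponds to the point `p` of Euclidean space -/
structure Frm (g : Ten E3 M) (U : Set M) (f : M → ℝ) (K : ℝ) (a : M) (p : E3)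
    (L : E3 ≃L[ℝ] E3) : Prop where
  mem : a ∈ U
  iso : Iso (cone f g a) L
  val : Real.exp (2 * f a) = K * ‖p‖ ^ 2
  der : ∀ v, Real.exp (2 * f a) * fderiv ℝ (rd E3 f a) (pt E3 a) (L v) = K * ⟪p, v⟫_ℝ

/-- a local isometry from Euclidean space to the cone -/
structure Dev (g : Ten E3 M) (U : Set M) (f : M → ℝ) (K : ℝ) (φ : E3 → M) (V : Set E3) : Prop where
  ld : LD E3 φ V
  maps : MapsTo φ V U
  iso : ∀ x ∈ V, ∀ v w, comap φ (cone f g) x v w = ⟪v, w⟫_ℝ
  val : ∀ x ∈ V, Real.exp (2 * f (φ x)) = K * ‖x‖ ^ 2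

/-- the polar chart -/
def pol (g : Ten E3 M) (U : Set M) (f : M → ℝ) (a : M) (p : E3) (L : E3 ≃L[ℝ] E3) (x : E3) : M :=
  expo (cone f g) U a (L (x - p))

/-- the points seen from `p` -/
def vis (p : E3) : Set E3 := {x | ∀ t ∈ Icc (0 : ℝ) 1, p + t • (x - p) ≠ 0}

variable {g : Ten E3 M} {U : Set M} {f : M → ℝ} {K : ℝ} {a : M} {p v x y : E3} {L : E3 ≃L[ℝ] E3}
  {φ ψ : E3 → M} {V : Set E3}

namespace Rnd

variable (h : Rnd g U f K)
include h

theorem cmet : Met (cone f g) U :=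
  ⟨h.met.isOpen, fun x hx v w => by simp only [cone, smul_apply, h.met.symm x hx v w],
    fun x hx v hv => mul_pos (Real.exp_pos _) (h.met.pos x hx v hv),
    fun a => (met_cf (h.par a).met (h.par a).sm).smooth⟩

theorem flat : Flat (cone f g) U := fun a u hu x y z =>
  (h.par a).flat hu h.pos (h.gam a u hu) (h.sc a u hu) x y z

theorem exp_geo {γ : ℝ → M} {s : Set ℝ} (hγ : IsGeo (cone f g) U γ s) (hs : IsOpen s) {t : ℝ}
    (ht : t ∈ s) : HasDerivAt (fun s => Real.exp (2 * f (γ s))) (2 * (Real.exp (2 * f (γ t)) *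
      fderiv ℝ (rd E3 f (γ t)) (pt E3 (γ t)) (dv γ t))) t ∧
      HasDerivAt (deriv fun s => Real.exp (2 * f (γ s))) (2 * K * sp (cone f g) γ t) t := by
  have ha := mem_chart_source E3 (γ t)
  have he := eventually_source (E := E3) (hγ.contAt hs ht) ha
  have := (h.par (γ t)).exp_geo (c := cc γ (γ t)) (t := t) (F := fun s => Real.exp (2 * f (γ s))) (by
    filter_upwards [hs.mem_nhds ht, he] with r a b using ⟨hγ.cc_mem a b, (hγ.eqn _ r a b).1⟩)
    (hγ.eqn _ t ht ha).2.1 (hγ.eqn _ t ht ha).2.2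
    (he.mono fun r b => by simp only [rd, cc, Function.comp_apply, (chartAt E3 (γ t)).left_inv b])
  rw [h.gam _ _ (hγ.cc_mem ht ha), ← co_cone, ← sp_chart (hγ.contAt hs ht) ha (hγ.eqn _ t ht ha).1,
    show rd E3 f (γ t) (cc γ (γ t) t) = f (γ t) from rd_pt f _] at this
  exact this

theorem ray_val (hL : Frm g U f K a p L) {t : ℝ} (ht : t ∈ Life (cone f g) U a (L v)) :
    Real.exp (2 * f (ray (cone f g) U a (L v) t)) = K * ‖p + t • v‖ ^ 2 := by
  have hG := isGeo_ray (p := a) (v := L v) h.cmet h.hs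
  have h0 := zero_mem_Life h.cmet hL.mem (L v)
  have := quad isOpen_Life ordConnected_Life.isPreconnected h0 (c := 2 * K * ‖v‖ ^ 2)
    (fun s hs => ⟨(h.exp_geo hG isOpen_Life hs).1.differentiableAt,
      (h.exp_geo hG isOpen_Life hs).2.congr_deriv (by
        rw [sp_ray h.cmet h.hs hs, hL.iso, real_inner_self_eq_norm_sq])⟩) ht
  rw [this, (h.exp_geo hG isOpen_Life h0).1.deriv, dv_ray_zero h.cmet h.hs hL.mem,
    ray_zero h.cmet h.hs, hL.der, hL.val, norm_add_sq_real, real_inner_smul_right, norm_smul,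
    mul_pow, Real.norm_eq_abs, sq_abs]
  ring

theorem mem_Dom (hL : Frm g U f K a p L) (hv : ∀ t ∈ Icc (0 : ℝ) 1, p + t • v ≠ 0) :
    L v ∈ Dom (cone f g) U a := by
  obtain ⟨s, hs, hm⟩ := isCompact_Icc.exists_isMinOn (f := fun t : ℝ => ‖p + t • v‖)
    (nonempty_Icc.2 (zero_le_one' ℝ)) (by fun_prop)
  have hp := mul_pos h.pos (pow_pos (norm_pos_iff.2 (hv s hs)) 2)
  set C := √(‖v‖ ^ 2 / (K * ‖p + s • v‖ ^ 2)) with hC
  refine mem_Tm_of_compact h.cmet h.hs (h.cpl a hL.mem C)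
    (fun y hy => (mem_of_ed_ne (ne_top_of_le_ne_top ENNReal.ofReal_ne_top hy)).2)
    (self_mem_dom hL.mem) zero_le_one fun t ht hT => ?_
  have h1 := ed_le_len (g := g) (IsGeo.crv h.cmet h.hs ht.1 hT)
  rw [ray_zero h.cmet h.hs] at h1
  refine h1.trans ((len_le_const (C := C) fun r hr => ?_).trans ?_)
  · have hr' := Icc_subset_Life hT (Ioo_subset_Icc_self hr)
    have h2 := sp_ray h.cmet h.hs hr'
    rw [hL.iso, real_inner_self_eq_norm_sq, sp, cone, h.ray_val hL hr'] at h2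
    rw [spd, (isGeo_ray h.cmet h.hs).vel_eq isOpen_Life hr']
    refine Real.sqrt_le_sqrt ((le_div_iff₀ hp).2 ?_)
    rw [← h2, mul_comm]
    exact mul_le_mul_of_nonneg_right (mul_le_mul_of_nonneg_left (pow_le_pow_left₀ (norm_nonneg _)
      (hm ⟨hr.1.le, hr.2.le.trans ht.2.le⟩) 2) h.pos.le)
      (h.met.nonneg ((isGeo_ray h.cmet h.hs).mem r hr') _)
  · rw [← ENNReal.ofReal_mul (Real.sqrt_nonneg _)]
    exact ENNReal.ofReal_le_ofReal (mul_le_of_le_one_right (Real.sqrt_nonneg _)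
      (by linarith [ht.2]))

theorem vis_eq (hL : Frm g U f K a p L) :
    vis p = (fun x => L (x - p)) ⁻¹' Dom (cone f g) U a := by
  refine Subset.antisymm (fun x hx => h.mem_Dom hL hx) fun x hx t ht h0 => ?_
  have := h.ray_val hL (Icc_subset_Life hx ht)
  rw [h0] at this
  simp at this

theorem dev_pol (hL : Frm g U f K a p L) : Dev g U f K (pol g U f a p L) (vis p) ∧
    pol g U f a p L p = a ∧ md E3 (pol g U f a p L) p = L := by
  have h1 : ∀ x, HasFDerivAt (fun x => L (x - p)) (L : E3 →L[ℝ] E3) x := fun x =>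
    L.hasFDerivAt.comp x ((hasFDerivAt_id x).sub_const p)
  have h2 : ContDiff ℝ ∞ fun x => L (x - p) := L.contDiff.comp (contDiff_id.sub contDiff_const)
  have h3 : ∀ x ∈ vis p, L (x - p) ∈ Dom (cone f g) U a := fun x hx => h.mem_Dom hL hx
  have h4 : ∀ x ∈ vis p, md E3 (pol g U f a p L) x =
      md E3 (expo (cone f g) U a) (L (x - p)) ∘L (L : E3 →L[ℝ] E3) := fun x hx => by
    rw [← (h1 x).fderiv, ← md_model]
    exact md_comp (SM.md (contMDiffAt_expo h.cmet h.hs (h3 x hx))) (SM.md h2.contMDiff.contMDiffAt)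
  have h5 : ∀ x ∈ vis p, ∀ v w, comap (pol g U f a p L) (cone f g) x v w = ⟪v, w⟫_ℝ :=
    fun x hx v w => by
      rw [← hL.iso, ← flat_expo h.cmet h.hs h.flat (h3 x hx), comap_apply, h4 x hx]; rfl
  refine ⟨⟨⟨?_, (contMDiffOn_expo h.cmet h.hs).comp h2.contMDiff.contMDiffOn h3, fun x hx => ?_⟩,
    fun x hx => expo_mem h.cmet h.hs (h3 x hx), h5, fun x hx => ?_⟩, ?_, ?_⟩
  · rw [h.vis_eq hL]
    exact (isOpen_Dom h.cmet h.hs).preimage h2.continuous
  · refine (injective_iff_map_eq_zero _).2 fun v hv => inner_self_eq_zero (𝕜 := ℝ).1 ?_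
    rw [← h5 x hx, comap_apply, hv, map_zero]
  · have := h.ray_val hL (h3 x hx)
    rwa [one_smul, add_sub_cancel] at this
  · rw [pol, sub_self, map_zero, expo_zero h.cmet h.hs hL.mem]
  · rw [h4 p (by rw [h.vis_eq hL]; simpa using zero_mem_Dom h.cmet h.hs hL.mem), sub_self, map_zero]
    ext1 v
    exact md_expo_zero h.cmet h.hs hL.mem _

/-- every point has a frame -/
theorem exists_frm (ha : a ∈ U) (hp : Real.exp (2 * f a) = K * ‖p‖ ^ 2) :
    ∃ L, Frm g U f K a p L := by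
  have hd := pt_mem_dom (E := E3) ha
  have h1 := fun w => G_grad (f := rd E3 f a) (h.par a).met hd w
  rw [co_pt] at h1
  obtain ⟨L, hL, hX⟩ := exists_iso (h.cmet.symm a ha) (h.cmet.pos a ha)
    (X := gradG (co g a) (rd E3 f a) (pt E3 a)) (p := K • p) (by
      rw [cone, smul_apply, smul_apply, h1, h.gam a _ hd, hp, norm_smul, mul_pow, Real.norm_eq_abs,
        sq_abs, smul_eq_mul]
      ring)
  exact ⟨L, ha, hL, hp, fun v => by rw [← h1, ← hX, ← real_inner_smul_left, ← hL]; rfl⟩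

/-- a developing map gives frames -/
theorem frm_of (hφ : Dev g U f K φ V) (hx : x ∈ V) :
    ∃ L : E3 ≃L[ℝ] E3, Frm g U f K (φ x) x L ∧ md E3 φ x = L := by
  let L : E3 ≃L[ℝ] E3 := (LinearEquiv.ofInjectiveEndo (md E3 φ x : E3 →ₗ[ℝ] E3)
    (hφ.ld.inj x hx)).toContinuousLinearEquiv
  refine ⟨L, ⟨hφ.maps hx, hφ.iso x hx, hφ.val x hx, fun v => ?_⟩, rfl⟩
  have ha := mem_chart_source E3 (φ x)
  have h1 := (contDiffAt_chart_comp (hφ.ld.sm hx) ha).differentiableAt (by simp)
  have h2 := (((dAt (h.par _).met (h.par _).sm (pt_mem_dom (hφ.maps hx))).comp x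
    h1.hasFDerivAt).const_mul 2).exp
  have h3 := DFunLike.congr_fun (h2.unique ((((hasFDerivAt_id x).norm_sq).const_mul K
    ).congr_of_eventuallyEq (by
      filter_upwards [hφ.ld.isOpen.mem_nhds hx,
        (hφ.ld.continuousAt hx).eventually ((chartAt E3 _).open_source.mem_nhds ha)] with y a b
      simp only [rd, Function.comp_apply, (chartAt E3 _).left_inv b, hφ.val y a, id]))) v
  have h4 : L v = fderiv ℝ (chartAt E3 (φ x) ∘ φ) x v :=
    DFunLike.congr_fun (md_of_chart (hφ.ld.continuousAt hx) h1) v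
  have h5 : (rd E3 f (φ x) ∘ chartAt E3 (φ x) ∘ φ) x = f (φ x) := rd_pt f _
  simp only [smul_apply, ContinuousLinearMap.comp_apply, smul_eq_mul, h5, ← h4, id,
    ContinuousLinearMap.id_apply, innerSL_apply_apply, nsmul_eq_mul, Nat.cast_ofNat] at h3
  linarith

end Rnd

theorem met_euc (hV : IsOpen V) : IsMetricOn (fun _ : E3 => (innerSL ℝ : Bil E3)) V :=
  ⟨hV, contDiffOn_const, fun _ _ v w => real_inner_comm w v,
    fun _ _ _ hv => real_inner_self_pos.2 hv⟩

/-- straight lines go to geodesics -/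
theorem Rnd.isGeo_line (h : Rnd g U f K) (hφ : Dev g U f K φ V) (x v : E3) :
    IsGeo (cone f g) U (fun t => φ (x + t • v)) {t | x + t • v ∈ V} := by
  have h1 : ∀ t : ℝ, HasDerivAt (fun t : ℝ => x + t • v) v t := fun t => by
    simpa using ((hasDerivAt_id t).smul_const v).const_add x
  have h2 : deriv (fun t : ℝ => x + t • v) = fun _ => v := funext fun t => (h1 t).deriv
  refine ⟨⟨hφ.ld.smooth.continuousOn.comp (by fun_prop) fun t ht => ht, fun b t ht hb => ?_⟩,
    fun t ht => hφ.maps ht⟩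
  refine (met_euc hφ.ld.isOpen).geodesic_trans (τ := chartAt E3 b ∘ φ) (c := fun t => x + t • v)
    (met_on h.cmet b) ht (P216R.mem_dom hb (hφ.maps ht)) (contDiffAt_chart_comp (hφ.ld.sm ht) hb) ?_
    (Eventually.of_forall fun s => (h1 s).differentiableAt) (by rw [h2]; fun_prop)
    (by simp [h2, chris])
  filter_upwards [hφ.ld.isOpen.mem_nhds ht,
    (hφ.ld.continuousAt ht).eventually ((chartAt E3 _).open_source.mem_nhds hb)] with y a b v w
  rw [← comap_model, ← comap_eq _ (hφ.ld.md a) b, hφ.iso y a]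
  rfl

/-- a developing map is determined along segments -/
theorem Rnd.eq_expo (h : Rnd g U f K) (hφ : Dev g U f K φ V)
    (hs : ∀ t ∈ Icc (0 : ℝ) 1, x + t • (y - x) ∈ V) :
    φ y = expo (cone f g) U (φ x) (md E3 φ x (y - x)) := by
  have ho : IsOpen {t : ℝ | x + t • (y - x) ∈ V} :=
    hφ.ld.isOpen.preimage (by fun_prop : Continuous fun t : ℝ => x + t • (y - x))
  have h0 : (0 : ℝ) ∈ Icc (0 : ℝ) 1 := ⟨le_rfl, zero_le_one⟩
  have h1 := isPreconnected_Icc.subset_connectedComponentIn h0 hs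
  have hx : x ∈ V := by simpa using hs 0 h0
  have h2 := (((h.isGeo_line hφ x (y - x)).mono (connectedComponentIn_subset _ 0)).eq_ray h.cmet h.hs
    ho.connectedComponentIn isPreconnected_connectedComponentIn.ordConnected (h1 h0) (t := 1)
    (h1 ⟨by norm_num, by norm_num⟩)).2
  have h3 : dv (fun t : ℝ => φ (x + t • (y - x))) 0 = md E3 φ x (y - x) := by
    have h4 := (contDiffAt_chart_comp (hφ.ld.sm hx) (mem_chart_source E3 _)).differentiableAt
      (by simp)
    have h5 : HasDerivAt (fun t : ℝ => x + t • (y - x)) (y - x) 0 := by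
      simpa using ((hasDerivAt_id (0 : ℝ)).smul_const (y - x)).const_add x
    rw [md_of_chart (hφ.ld.continuousAt hx) h4, dv]
    simp only [zero_smul, add_zero]
    exact (h4.hasFDerivAt.comp_hasDerivAt_of_eq 0 h5 (by simp)).deriv
  rw [h3] at h2
  simp only [zero_smul, add_zero, one_smul, add_sub_cancel] at h2
  exact h2.symm

end Vale.Agent.P216CY
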