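import Vale.Agent.P216CY.Tr
import Vale.Agent.P216DC.Resc
import Vale.Agent.P216L.Cmp
import Vale.Agent.P216MP.Vs
import Vale.Agent.P216CP.HR

/-!
# P216CY: the cross sections of a split kappa solution are bounded
-/

open scoped Manifold ContDiff Topology
open Set Filter MeasureTheory

set_option maxSynthPendingDepth 3
set_option linter.unusedSectionVars false

noncomputable section

namespace Vale.Agent.P216CY

open Vale.Agent.P219.RG Vale.Agent.P216R Vale.Agent.P216CP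
open Vale.Agent.P216DC (Spl KS UNI)
open Vale.Agent.P216BF (finrank_E3)

variable {M : Type} [TopologicalSpace M] [ChartedSpace E3 M] [IsManifold 𝓘(ℝ, E3) ∞ M]
  {g : Ten E3 M} {U : Set M} {b : M → ℝ} {x y : M} {γ : ℝ → M} {L r c : ℝ} {C : ℝ → ℝ}

/-- the Ricci curvature in the direction of a curve -/
abbrev rc (g : Ten E3 M) (γ : ℝ → M) (s : ℝ) : ℝ := Ric g (γ s) (vel E3 γ s) (vel E3 γ s)

theorem int_rc (hg : Met g U) (hγ : MinGeo g U γ L) :
    IntervalIntegrable (fun s => (s / L) ^ 2 * rc g γ s) volume 0 L :=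
  (P216L.integrable_ric hg hγ).continuousOn_mul (by fun_prop)

theorem half (hg : Met g U) (hγ : MinGeo g U γ L) (hL : 0 < L) :
    ∃ f, Sup g U (γ 0) (γ L) f ∧ f (γ L) = L ∧
      lap g f (γ L) = 2 / L - ∫ s in (0 : ℝ)..L, (s / L) ^ 2 * rc g γ s := by
  obtain ⟨f, h1, h2, -, h3, -⟩ := P216L.support0 hg hγ hL (α := fun s => s / L) (by fun_prop)
    (zero_div L) (div_self hL.ne')
  refine ⟨f, h1, h2, h3.trans ?_⟩
  rw [intervalIntegral.integral_sub (by simp) (int_rc hg hγ)]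
  simp only [finrank_E3, deriv_div_const, deriv_id'', intervalIntegral.integral_const, smul_eq_mul]
  congr 1
  field_simp
  norm_num

/-- the second variation about the midpoint of a minimiser -/
theorem myers (hg : Met g U) (hγ : MinGeo g U γ (2 * L)) (h0 : ∀ t ∈ Icc 0 (2 * L), 0 ≤ rc g γ t)
    (hr : 0 < r) (hL : 2 * r ≤ L) (hc0 : 0 ≤ c) (hc : ∀ t ∈ Icc (L - r) L, c ≤ rc g γ t) :
    r * c * L ≤ 16 := by
  have hL0 : 0 < L := by linarith
  have m1 := minGeo_mono hγ hL0.le (by linarith)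
  obtain ⟨m2, v2⟩ := minGeo_rev hγ
  obtain ⟨f, f1, f2, f3⟩ := half hg m1 hL0
  obtain ⟨k, k1, k2, k3⟩ := half hg (minGeo_mono m2 hL0.le (by linarith)) hL0
  simp only [sub_zero, show 2 * L - L = L by ring] at k1 k2 k3
  have sf := P216MP.sa_of f1.smooth
  have sk := P216MP.sa_of k1.smooth
  have h1 := P216MP.lap_nonneg (f := fun y => f y + k y) hg (minGeo_mem m1 ⟨hL0.le, le_rfl⟩)
    (sf.add sk) (by
      filter_upwards [f1.le, k1.le, sf.cont.eventually (le_mem_nhds (f2.symm ▸ hL0)),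
        sk.cont.eventually (le_mem_nhds (k2.symm ▸ hL0))] with z a1 a2 a3 a4
      have := ed_le_add a1 (ed_comm.trans_le a2) a3 a4
      rw [minGeo_ed hγ, ENNReal.ofReal_le_ofReal_iff (add_nonneg a3 a4)] at this
      linarith)
  rw [P216MP.lap_add sf sk, f3, k3] at h1
  have h2 : 0 ≤ ∫ s in (0 : ℝ)..L, (s / L) ^ 2 * rc g (fun t => γ (2 * L - t)) s :=
    intervalIntegral.integral_nonneg hL0.le fun s hs => mul_nonneg (sq_nonneg _) (by
      have := h0 (2 * L - s) ⟨by linarith [hs.2], by linarith [hs.1]⟩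
      simpa [rc, v2 s ⟨hs.1, by linarith [hs.2]⟩] using this)
  have h3 := intervalIntegral.integral_mono_interval (by linarith : 0 ≤ L - r)
    (by linarith : L - r ≤ L) le_rfl ((ae_restrict_iff' measurableSet_Ioc).2 (ae_of_all _
      fun s hs => mul_nonneg (sq_nonneg _) (h0 s ⟨hs.1.le, by linarith [hs.2]⟩))) (int_rc hg m1)
  have h4 := intervalIntegral.integral_mono_on (by linarith : L - r ≤ L)
    (intervalIntegrable_const (c := c / 4)) ((int_rc hg m1).mono_set (by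
      rw [uIcc_of_le hL0.le, uIcc_of_le (by linarith)]
      exact Icc_subset_Icc (by linarith) le_rfl)) fun s hs => by
      have a1 : 1 / 2 ≤ s / L := by rw [le_div_iff₀ hL0]; linarith [hs.1]
      nlinarith [hc s hs, mul_le_mul_of_nonneg_right (show 1 / 4 ≤ (s / L) ^ 2 by nlinarith)
        (hc0.trans (hc s hs))]
  rw [intervalIntegral.integral_const, smul_eq_mul] at h4
  have h5 : r * c / 4 ≤ 4 / L := by
    have : 4 / L = 2 / L + 2 / L := by ring
    linarith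
  rw [le_div_iff₀ hL0] at h5
  linarith

/-- along a minimiser in a cross section -/
theorem rc_level (hg : Met g U) (hb : Spl g U b) (hγ : MinGeo g U γ L) (hL : 0 < L)
    (he : b (γ 0) = b (γ L)) {t : ℝ} (ht : t ∈ Icc 0 L) : rc g γ t = Sc g (γ t) / 2 := by
  obtain ⟨ε, hε, hG⟩ := minGeo_isGeo hγ
  have s : Icc 0 L ⊆ Ioo (-ε) (L + ε) := Icc_subset_Ioo (by linarith) (by linarith)
  have a := fun t ht => spl_aff hg hb hG isOpen_Ioo isPreconnected_Ioo (s ⟨le_rfl, hL.le⟩)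
    (t := t) ht
  have a0 : deriv (fun s => b (γ s)) 0 = 0 :=
    (mul_eq_zero.1 (by linarith [a L (s ⟨hL.le, le_rfl⟩)])).resolve_right hL.ne'
  have d : fderiv ℝ (rd E3 b (γ t)) (pt E3 (γ t)) (dv γ t) = 0 :=
    (spl_geo hg hb hG isOpen_Ioo (s ht) (mem_chart_source E3 _)).1.unique
      ((hasDerivAt_const t (b (γ 0))).congr_of_eventuallyEq
        ((isOpen_Ioo.eventually_mem (s ht)).mono fun r hr => by simp [a r hr, a0]))
  rw [rc, spl_ric hg hb (minGeo_mem hγ ht), minGeo_sp hγ ht, minGeo_vel hγ ht, d]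
  ring

/-- the scalar curvature is controlled at its own scale -/
def UD (g : Ten E3 M) (U : Set M) (C : ℝ → ℝ) : Prop :=
  ∀ x ∈ U, 0 < Sc g x ∧ ∀ A, ∀ y ∈ bl g U x (A / √(Sc g x)),
    Sc g x / C A ≤ Sc g y ∧ Sc g y ≤ C A * Sc g x

theorem UD.one_le (h : UD g U C) (hx : x ∈ U) {A : ℝ} (hA : 0 < A) : 1 ≤ C A :=
  (le_mul_iff_one_le_left (h x hx).1).1
    ((h x hx).2 A x (mem_bl_self hx (div_pos hA (Real.sqrt_pos.2 (h x hx).1)))).2

theorem level (hg : Met g U) (hH : Hs U) (hc : Cpl g U) (hb : Spl g U b) (hU : IsPreconnected U)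
    (h : UD g U C) (hx : x ∈ U) (hy : y ∈ U) (he : b x = b y) :
    Sc g x ≤ C (65 * C 1) ^ 2 * Sc g y ∧
      dd g U x y ≤ 2 * (65 * C 1 / √(Sc g x / C (65 * C 1))) := by
  obtain ⟨γ, hγ, rfl, e1⟩ := exists_minGeo_cpl hg hH hc (hg.ed_ne_top hU Subset.rfl hx hy)
  obtain ⟨L, hL⟩ : ∃ L, dd g U (γ 0) y = 2 * L := ⟨_, (mul_div_cancel₀ _ two_ne_zero).symm⟩
  rw [hL] at hγ e1 ⊢
  subst e1
  have L0 : 0 ≤ L := by linarith [hγ.nonneg]
  have hm : L ∈ Icc 0 (2 * L) := ⟨L0, by linarith⟩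
  obtain ⟨q0, hq⟩ := h _ (minGeo_mem hγ hm)
  have c1 := h.one_le hx one_pos
  have cA := h.one_le hx (show 0 < 65 * C 1 by positivity)
  have s0 := Real.sqrt_pos.2 q0
  have near : ∀ t ∈ Icc 0 (2 * L), ∀ ρ, |L - t| < ρ → γ t ∈ bl g U (γ L) ρ := fun t ht ρ hρ => by
    rw [bl, mem_ofPred_eq, hγ.min L hm t ht]
    exact (ENNReal.ofReal_lt_ofReal_iff ((abs_nonneg _).trans_lt hρ)).2 hρ
  have k : L < 65 * C 1 / √(Sc g (γ L)) := by
    rw [lt_div_iff₀ s0]
    rcases lt_or_ge L (2 * (1 / √(Sc g (γ L)) / 2)) with k | k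
    · rw [mul_div_cancel₀ _ two_ne_zero, lt_div_iff₀ s0] at k
      linarith
    have r0 : 0 < 1 / √(Sc g (γ L)) / 2 := by positivity
    have e := fun t ht => rc_level hg hb hγ (by linarith) he (t := t) ht
    have := myers hg hγ (fun t ht => by rw [e t ht]; exact (half_pos (h _ (minGeo_mem hγ ht)).1).le)
      r0 k (c := Sc g (γ L) / C 1 / 2) (by positivity) fun t ht => by
        have ht' : t ∈ Icc 0 (2 * L) := ⟨by linarith [ht.1], by linarith [ht.2]⟩
        rw [e t ht']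
        linarith [(hq 1 _ (near t ht' _ (abs_lt.2 ⟨by linarith [ht.2], by linarith [ht.1]⟩))).1]
    rw [← Real.mul_self_sqrt q0.le, Real.sqrt_mul_self s0.le] at this
    field_simp at this
    nlinarith
  have h1 := (hq _ _ (near 0 ⟨le_rfl, hγ.nonneg⟩ _ (by rwa [sub_zero, abs_of_nonneg L0]))).2
  have h2 := (hq _ _ (near _ ⟨hγ.nonneg, le_rfl⟩ _ (by
    rwa [abs_sub_comm, show 2 * L - L = L by ring, abs_of_nonneg L0]))).1
  rw [div_le_iff₀' (by positivity)] at h2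
  refine ⟨by nlinarith, mul_le_mul_of_nonneg_left (k.le.trans ?_) zero_le_two⟩
  have := (h _ hx).1
  gcongr
  rwa [div_le_iff₀' (by positivity)]

/-- the universal estimates at every point and time -/
theorem uni_sc (H : UNI) {κ : ℝ} (hκ : 0 < κ) : ∃ (C : ℝ → ℝ) (D : ℕ → ℝ),
    ∀ (M : Type) [TopologicalSpace M] [ChartedSpace E3 M] [IsManifold 𝓘(ℝ, E3) ∞ M]
      [MeasurableSpace M] [BorelSpace M] (g : ℝ → Ten E3 M) (U : Set M), KS κ g U → ∀ t ≤ 0,
      UD (g t) U C ∧ ∀ x ∈ U, ∀ k, RmB (g t) k x (√(Sc (g t) x) ^ (k + 2) * D k) := by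
  obtain ⟨v, C, D, -, H⟩ := H κ hκ
  refine ⟨C, fun k => D k 1, fun M _ _ _ _ _ g U h t ht => ?_⟩
  have k := fun x hx => (H M _ U x (h.resc (h.pos t ht x hx) ht) hx (by
    rw [P216DC.resc_zero, P216DC.sc_sc (h.pos t ht x hx), div_self (h.pos t ht x hx).ne'])).2
  refine ⟨fun x hx => ⟨h.pos t ht x hx, fun A y hy => ?_⟩, fun x hx j => ?_⟩
  · have q := h.pos t ht x hx
    obtain ⟨a1, a2⟩ := k x hx A y (by rwa [P216DC.resc_zero, P216DC.bl_sc q])
    have a3 := (a2 0 le_rfl).1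
    rw [P216DC.resc_zero, P216DC.sc_sc q] at a1 a3
    rw [le_div_iff₀ q, one_div_mul_eq_div] at a1
    exact ⟨a1, (div_le_iff₀ q).1 a3⟩
  · have := ((k x hx 1 x (mem_bl_self hx one_pos)).2 0 le_rfl).2 j
    rwa [P216DC.resc_zero, P216DC.rmB_sc (h.met ht) hx (h.pos t ht x hx)] at this

end Vale.Agent.P216CY
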