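import Vale.Agent.P216CY.Conf

/-!
# P216CY: the cone over a round cross section is flat
-/

open scoped ContDiff Topology InnerProductSpace
open Set

set_option maxSynthPendingDepth 3
set_option linter.unusedSectionVars false

noncomputable section

namespace Vale.Agent.P216CY

open Vale.Agent.P219.RG Vale.Agent.P216R
open Vale.Agent.P210.R2.H53 (gradG)

/-- the standard basis -/
def eb (i : Fin 3) : E3 := EuclideanSpace.single i 1

theorem sum_eb (v : E3) : ∑ i, v i • eb i = v := by
  ext j; simp [eb, Pi.single_apply]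

/-- `L` is a linear isometry from the Euclidean form to `B` -/
def Iso (B : Bil E3) (L : E3 ≃L[ℝ] E3) : Prop := ∀ v w, B (L v) (L w) = ⟪v, w⟫_ℝ

theorem exists_iso {B : Bil E3} (hs : ∀ v w, B v w = B w v) (hp : ∀ v, v ≠ 0 → 0 < B v v)
    {X p : E3} (hX : B X X = ‖p‖ ^ 2) : ∃ L, Iso B L ∧ L p = X := by
  obtain ⟨v, hv⟩ := LinearMap.BilinForm.exists_orthogonal_basis (K := ℝ) (V := E3)
    (B := B.toLinearMap₁₂) ⟨hs⟩
  let b := v.reindex (finCongr (finrank_euclideanSpace_fin (𝕜 := ℝ) (n := 3)))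
  have h0 : ∀ i, 0 < B (b i) (b i) := fun i => hp _ (b.ne_zero i)
  have h1 : ∀ i j, i ≠ j → B (b i) (b j) = 0 := fun i j h => by
    simp only [b, Module.Basis.reindex_apply]
    exact hv fun e => h ((finCongr _).symm.injective e)
  let L₀ : E3 →ₗ[ℝ] E3 := (EuclideanSpace.basisFun (Fin 3) ℝ).toBasis.constr ℝ
    fun i => (√(B (b i) (b i)))⁻¹ • b i
  have h2 : ∀ x y, B (L₀ x) (L₀ y) = ⟪x, y⟫_ℝ := fun x y => by
    have e : ∀ i, (√(B (b i) (b i)))⁻¹ * ((√(B (b i) (b i)))⁻¹ * B (b i) (b i)) = 1 := fun i => by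
      have := Real.mul_self_sqrt (h0 i).le
      have := Real.sqrt_pos.2 (h0 i)
      field_simp
      nlinarith
    simp only [L₀, Module.Basis.constr_apply_fintype, Fin.sum_univ_three, map_add, map_smul,
      add_apply, smul_apply, smul_eq_mul, PiLp.inner_apply, OrthonormalBasis.coe_toBasis_repr_apply,
      Module.Basis.equivFun_apply, EuclideanSpace.basisFun_repr, RCLike.inner_apply, conj_trivial]
    rw [h1 0 1 (by decide), h1 0 2 (by decide), h1 1 0 (by decide), h1 1 2 (by decide),
      h1 2 0 (by decide), h1 2 1 (by decide)]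
    linear_combination x 0 * y 0 * e 0 + x 1 * y 1 * e 1 + x 2 * y 2 * e 2
  let L₁ := (LinearEquiv.ofInjectiveEndo L₀ ((injective_iff_map_eq_zero _).2 fun x hx =>
    inner_self_eq_zero.1 (by rw [← h2, hx]; simp))).toContinuousLinearEquiv
  have h3 : Iso B L₁ := h2
  have h4 : ‖p‖ = ‖L₁.symm X‖ := by
    rw [← sq_eq_sq₀ (norm_nonneg _) (norm_nonneg _), ← hX, ← real_inner_self_eq_norm_sq, ← h3,
      L₁.apply_symm_apply]
  refine ⟨((ℝ ∙ (p - L₁.symm X))ᗮ.reflection.toContinuousLinearEquiv).trans L₁, fun x y => ?_, ?_⟩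
  · exact (h3 _ _).trans (LinearIsometryEquiv.inner_map_map _ _ _)
  · change L₁ ((ℝ ∙ (p - L₁.symm X))ᗮ.reflection p) = X
    rw [Submodule.reflection_sub h4, L₁.apply_symm_apply]

variable {B : Bil E3} {L : E3 ≃L[ℝ] E3}

theorem Iso.coord (h : Iso B L) (x : E3) (i : Fin 3) : B x (L (eb i)) = L.symm x i := by
  conv_lhs => rw [← L.apply_symm_apply x, h]
  simp [eb, EuclideanSpace.inner_single_right]

theorem Iso.expand (L : E3 ≃L[ℝ] E3) (x : E3) : x = ∑ i, L.symm x i • L (eb i) := by
  conv_lhs => rw [← L.apply_symm_apply x, ← sum_eb (L.symm x)]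
  simp only [map_sum, map_smul]

theorem Iso.sum (h : Iso B L) (x y : E3) : B x y = ∑ i, L.symm x i * L.symm y i := by
  conv_lhs => rw [← L.apply_symm_apply x, ← L.apply_symm_apply y, h]
  simp [PiLp.inner_apply, mul_comm]

theorem Iso.trace (h : Iso B L) (A : E3 →L[ℝ] E3) :
    LinearMap.trace ℝ E3 (A : E3 →ₗ[ℝ] E3) = ∑ i, B (A (L (eb i))) (L (eb i)) := by
  rw [LinearMap.trace_eq_matrix_trace ℝ
    ((EuclideanSpace.basisFun (Fin 3) ℝ).toBasis.map L.toLinearEquiv), Matrix.trace]
  refine Finset.sum_congr rfl fun i _ => ?_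
  rw [h.coord]
  simp [LinearMap.toMatrix_apply, eb]

theorem skew_two (L : E3 ≃L[ℝ] E3) {A : Bil E3} (h1 : ∀ x y, A x y = -A y x)
    (h2 : ∀ y, A (L (eb 2)) y = 0) (x y : E3) : A x y =
      (L.symm x 0 * L.symm y 1 - L.symm x 1 * L.symm y 0) * A (L (eb 0)) (L (eb 1)) := by
  have h0 : ∀ x, A x x = 0 := fun x => by linarith [h1 x x]
  conv_lhs => rw [Iso.expand L x, Iso.expand L y]
  simp only [Fin.sum_univ_three, map_add, map_smul, add_apply, smul_apply, smul_eq_mul, h0, h2,
    h1 _ (L (eb 2)), h1 (L (eb 1)) (L (eb 0))]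
  ring

section gen

variable {E : Type} [NormedAddCommGroup E] [NormedSpace ℝ E] [FiniteDimensional ℝ E]
  {G : E → Bil E} {U : Set E} {f : E → ℝ} {u : E}

theorem curv_anti (G : E → Bil E) (u x y z : E) : curv G u x y z = -curv G u y x z := by
  simp only [curv]; abel

theorem curv_bianchi (h : IsMetricOn G U) (hu : u ∈ U) (x y z : E) :
    curv G u x y z + curv G u y z x + curv G u z x y = 0 := by
  have e : ∀ a b, fderiv ℝ (fun p => chris G p a b) u = fderiv ℝ (fun p => chris G p b a) u :=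
    fun a b => Filter.EventuallyEq.fderiv_eq ((ev h hu).mono fun p hp => h.chris_symm hp a b)
  simp only [curv, e z x, e y x, e z y, h.chris_symm hu z x, h.chris_symm hu y x,
    h.chris_symm hu z y]
  abel

theorem curv_skew2 (h : IsMetricOn G U) (hu : u ∈ U) (x y z w : E) :
    G u (curv G u x y z) w = -G u (curv G u x y w) z := by
  have h1 := h.curv_skew hu x y (z + w)
  have h2 := h.curv_skew hu x y z
  have h3 := h.curv_skew hu x y w
  simp only [← curvB_apply h hu, map_add, add_apply] at h1 h2 h3 ⊢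
  linarith

theorem Par.curv_left (h : Par G f U) (hu : u ∈ U) (y z w : E) :
    G u (curv G u (gradG G f u) y z) w = 0 := by
  have e : ∀ y z, curv G u (gradG G f u) y z = curv G u (gradG G f u) z y := fun y z => by
    have := curv_bianchi h.met hu (gradG G f u) y z
    rw [h.curv_grad hu, curv_anti G u z, add_zero] at this
    exact sub_eq_zero.1 (by rw [← this]; abel)
  have k := curv_skew2 h.met hu (gradG G f u)
  have h1 := k y z w
  have h2 := k z w y
  have h3 := k w y z
  rw [e y w] at h1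
  rw [e z y, e z w] at h2
  rw [e w z] at h3
  rw [e z w] at h3
  linarith

end gen

variable {G : E3 → Bil E3} {U : Set E3} {f : E3 → ℝ} {u : E3} {K : ℝ}

theorem sc_iso (h : IsMetricOn G U) (hu : u ∈ U) (hL : Iso (G u) L) : scG G u =
    ∑ i, ∑ j, G u (curv G u (L (eb j)) (L (eb i)) (L (eb i))) (L (eb j)) := by
  rw [scG, trB, hL.trace]
  refine Finset.sum_congr rfl fun i _ => ?_
  rw [ContinuousLinearMap.comp_apply, (h.isInvertible hu).self_apply_inverse, ricG_apply,
    trL_apply, hL.trace]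
  simp only [ContinuousLinearMap.flip_apply, curvB_apply h hu]

/-- the curvature of a metric with a parallel gradient -/
theorem Par.curv_eq (h : Par G f U) (hu : u ∈ U) (hL : Iso (G u) L) {k : ℝ} (hk : k ≠ 0)
    (hX : gradG G f u = k • L (eb 2)) (x y z w : E3) : G u (curv G u x y z) w =
      scG G u / 2 * (L.symm x 0 * L.symm y 1 - L.symm x 1 * L.symm y 0) *
        (L.symm w 0 * L.symm z 1 - L.symm w 1 * L.symm z 0) := by
  have a : ∀ x y z w, G u (curv G u x y z) w =
      (L.symm x 0 * L.symm y 1 - L.symm x 1 * L.symm y 0) *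
        G u (curv G u (L (eb 0)) (L (eb 1)) z) w := fun x y z w => by
    have := skew_two L (A := ((ContinuousLinearMap.compL ℝ E3 E3 ℝ ((G u).flip w)).comp
      ((curvB G u).flip.flip.flip.flip.comp (ContinuousLinearMap.id ℝ E3) |>.flip.flip |>
        fun T => ((ContinuousLinearMap.flipₗᵢ ℝ E3 E3 E3).toContinuousLinearEquiv.toContinuousLinearMap.comp T).flip z)))
      ?_ ?_ x y
    · simpa [curvB_apply h.met hu] using this
    · intro x y
      simp [curvB_apply h.met hu, curv_anti G u x y]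
    · intro y
      have := h.curv_left hu y z w
      rw [hX, ← curvB_apply h.met hu] at this
      simpa [hk] using this
  have b : ∀ x y z w, G u (curv G u x y z) w =
      (L.symm w 0 * L.symm z 1 - L.symm w 1 * L.symm z 0) *
        G u (curv G u x y (L (eb 1))) (L (eb 0)) := fun x y z w => by
    have := skew_two L (A := ((G u).comp (curvB G u x y)).flip) ?_ ?_ w z
    · simpa [curvB_apply h.met hu] using this
    · intro z w
      simp [curvB_apply h.met hu, curv_skew2 h.met hu x y z w]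
    · intro z
      have := curv_skew2 h.met hu x y z (gradG G f u)
      rw [h.curv_grad hu, hX] at this
      simpa [hk, curvB_apply h.met hu] using this
  have c : scG G u = 2 * G u (curv G u (L (eb 0)) (L (eb 1)) (L (eb 1))) (L (eb 0)) := by
    rw [sc_iso h.met hu hL]
    simp only [Fin.sum_univ_three]
    rw [a (L (eb 1)) (L (eb 0)), b _ _ (L (eb 0)) (L (eb 1)), a (L (eb 0)) (L (eb 0)),
      a (L (eb 1)) (L (eb 1)), a (L (eb 2)), a (L (eb 2)), a (L (eb 2)), a _ (L (eb 2)),
      a _ (L (eb 2))]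
    simp [eb]
    ring
  rw [a, b, c]
  ring

/-- the conformal metric is flat -/
theorem Par.flat (h : Par G f U) (hu : u ∈ U) (hK : 0 < K)
    (h1 : fderiv ℝ f u (gradG G f u) = K) (h2 : scG G u = 2 * K) (x y z : E3) :
    curv (cf f G) u x y z = 0 := by
  have hk := Real.sqrt_pos.2 hK
  obtain ⟨L, hL, hX⟩ := exists_iso (h.met.symm u hu) (h.met.pos u hu) (X := gradG G f u)
    (p := √K • eb 2) (by
      rw [G_grad h.met hu, h1, norm_smul, Real.norm_of_nonneg hk.le, mul_pow, Real.sq_sqrt hK.le]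
      simp [eb])
  rw [map_smul] at hX
  have e : ∀ a, fderiv ℝ f u a = √K * L.symm a 2 := fun a => by
    rw [← G_grad h.met hu, ← hX, h.met.symm u hu, map_smul, hL.coord, smul_eq_mul]
  refine h.met.ext_of hu fun w => ?_
  rw [h.curv_cf hu]
  simp only [map_add, map_sub, add_apply, sub_apply, h.curv_eq hu hL hk.ne' hX.symm, dS, map_smul,
    smul_apply, smul_eq_mul, G_grad h.met hu, h1, h.met.symm u hu _ (gradG G f u), map_zero,
    zero_apply, h2]
  simp only [e, hL.sum, Fin.sum_univ_three]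
  rw [← Real.mul_self_sqrt hK.le, Real.sqrt_mul_self hk.le]
  ring

end Vale.Agent.P216CY
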