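import Vale.Agent.P216CY.Dev
import Vale.Agent.P216R.Nat

/-!
# P216CY: a complete split metric with constant positive scalar curvature is a round cylinder
-/

open scoped Manifold ContDiff Topology InnerProductSpace
open Set Filter

set_option maxSynthPendingDepth 3
set_option linter.unusedSectionVars false

noncomputable section

namespace Vale.Agent.P216CY

open Vale.Agent.P219.RG Vale.Agent.P216R Vale.Agent.P216CP

theorem exists_orth (p q : E3) : ∃ n : E3, n ≠ 0 ∧ ⟪n, p⟫_ℝ = 0 ∧ ⟪n, q⟫_ℝ = 0 := by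
  obtain ⟨n, h1, h2⟩ := (Submodule.ne_bot_iff _).1 (LinearMap.ker_ne_bot_of_finrank_lt
    (f := ((innerSL ℝ p).prod (innerSL ℝ q) : E3 →ₗ[ℝ] ℝ × ℝ)) (by simp))
  exact ⟨n, h2, (real_inner_comm _ _).trans (congrArg Prod.fst h1),
    (real_inner_comm _ _).trans (congrArg Prod.snd h1)⟩

theorem freq_ne {n : E3} (hn : n ≠ 0) (y : E3) : ∃ᶠ z in 𝓝 y, ⟪n, z⟫_ℝ ≠ 0 := fun h => by
  have h1 : (fun z => innerSL ℝ n z) =ᶠ[𝓝 y] fun _ => 0 := h.mono fun z hz => not_not.1 hz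
  have h2 := DFunLike.congr_fun (((innerSL ℝ n).hasFDerivAt (x := y)).unique
    ((hasFDerivAt_const (0 : ℝ) y).congr_of_eventuallyEq h1)) n
  exact hn (inner_self_eq_zero (𝕜 := ℝ).1 h2)

theorem mem_vis {n p x : E3} (hp : p ≠ 0) (h1 : ⟪n, p⟫_ℝ = 0) (h2 : ⟪n, x⟫_ℝ ≠ 0) : x ∈ vis p :=
  fun t _ h0 => by
    have := congrArg (fun z => ⟪n, z⟫_ℝ) h0
    simp only [inner_add_right, real_inner_smul_right, inner_sub_right, h1, inner_zero_right,
      zero_add, sub_zero, mul_eq_zero, h2, or_false] at this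
    exact hp (by simpa [this] using h0)

theorem exists_fixed (A : E3 ≃L[ℝ] E3) (hA : ∀ v w, ⟪A v, A w⟫_ℝ = ⟪v, w⟫_ℝ) :
    ∃ z, z ≠ 0 ∧ A (A z) = z := by
  let B : E3 → E3 → ℝ := fun v w => ⟪A v, w⟫_ℝ - ⟪v, A w⟫_ℝ
  have b1 : ∀ v w, B v w = -B w v := fun v w => by
    simp only [B, real_inner_comm (A v) w, real_inner_comm v (A w)]; ring
  have b0 : ∀ v, B v v = 0 := fun v => by linarith [b1 v v]
  have b2 : ∀ z w : E3, B z w = ∑ i, ∑ j, z i * w j * B (eb i) (eb j) := fun z w => by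
    conv_lhs => rw [← sum_eb z, ← sum_eb w]
    simp only [B, Fin.sum_univ_three, map_add, map_smul, inner_add_left, inner_add_right,
      real_inner_smul_left, real_inner_smul_right]
    ring
  have key : ∃ z, z ≠ 0 ∧ ∀ w, B z w = 0 := by
    by_cases h0 : (!₂[B (eb 1) (eb 2), B (eb 2) (eb 0), B (eb 0) (eb 1)] : E3) = 0
    · refine ⟨eb 0, fun h => by simpa [eb] using congrArg (fun z : E3 => z 0) h, fun w => ?_⟩
      have h1 : B (eb 2) (eb 0) = 0 := congrArg (fun z : E3 => z 1) h0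
      have h2 : B (eb 0) (eb 1) = 0 := congrArg (fun z : E3 => z 2) h0
      rw [b2]
      simp only [Fin.sum_univ_three, b0, b1 (eb 0) (eb 2), h1, h2]
      simp [eb]
    · refine ⟨_, h0, fun w => ?_⟩
      rw [b2]
      simp only [Fin.sum_univ_three, b0, b1 (eb 0) (eb 2), b1 (eb 1) (eb 0), b1 (eb 2) (eb 1)]
      simp
      ring
  obtain ⟨z, h1, h2⟩ := key
  refine ⟨z, h1, ext_inner_right ℝ fun w => ?_⟩
  rw [← A.apply_symm_apply w, hA]
  exact sub_eq_zero.1 (h2 _)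

variable {M : Type} [TopologicalSpace M] [ChartedSpace E3 M] [IsManifold 𝓘(ℝ, E3) ∞ M]
  {g : Ten E3 M} {U : Set M} {f : M → ℝ} {K : ℝ} {a : M} {p v x y : E3} {L : E3 ≃L[ℝ] E3}
  {φ ψ : E3 → M} {V W : Set E3}

theorem rnd_of (hg : Met g U) (hH : Hs U) (hc : Cpl g U) (hK : 0 < K)
    (hf : ContMDiffOn 𝓘(ℝ, E3) 𝓘(ℝ, ℝ) ∞ f U) (h1 : ∀ x ∈ U, hess g f x = 0)
    (h2 : ∀ x ∈ U, gam g f f x = K) (h3 : ∀ x ∈ U, Sc g x = 2 * K) : Rnd g U f K := by
  have s : ∀ a, ContDiffOn ℝ ∞ (rd E3 f a) (dom E3 a U) := fun a =>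
    (hf.comp ((ld_symm a).smooth.mono inter_subset_left) fun _ hu => hu.2).contDiffOn
  have s' : ∀ x ∈ U, ContDiffAt ℝ ∞ (rd E3 f x) (pt E3 x) := fun x hx =>
    (s x).contDiffAt ((isOpen_dom x hg.isOpen).mem_nhds (pt_mem_dom hx))
  refine ⟨hg, hH, hc, hK, fun a => ⟨hg.isMetricOn a, s a, fun u hu v w => ?_⟩, fun a u hu => ?_,
    fun a u hu => (hg.rd_Sc hu).symm.trans (h3 _ hu.2)⟩
  · have := (li_comap hg (ld_symm a) hu.1 hu.2).hess ((s' _ hu.2).of_le two_le_infty)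
    rw [hess_model] at this
    rw [← sub_eq_zero, ← hessG_apply]
    exact (DFunLike.congr_fun (DFunLike.congr_fun this v) w).trans
      (by rw [comap_apply, h1 _ hu.2]; rfl)
  · have d := (s' _ hu.2).differentiableAt (by simp)
    have := (li_comap hg (ld_symm a) hu.1 hu.2).gam d d
    rw [gam_model, h2 _ hu.2] at this
    exact this

theorem Dev.congr (h : Dev g U f K φ V) (he : EqOn ψ φ V) : Dev g U f K ψ V :=
  ⟨h.ld.congr he, fun x hx => he hx ▸ h.maps hx, fun x hx => by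
    rw [comap_congr _ (he.eventuallyEq_of_mem (h.ld.isOpen.mem_nhds hx))]; exact h.iso x hx,
    fun x hx => he hx ▸ h.val x hx⟩

theorem Dev.union (h : Dev g U f K φ V) (h' : Dev g U f K φ W) : Dev g U f K φ (V ∪ W) :=
  ⟨⟨h.ld.isOpen.union h'.ld.isOpen, fun _ hx =>
      (hx.elim h.ld.sm h'.ld.sm).contMDiffWithinAt, fun x hx => hx.elim (h.ld.inj x) (h'.ld.inj x)⟩,
    h.maps.union h'.maps, fun x hx => hx.elim (h.iso x) (h'.iso x),
    fun x hx => hx.elim (h.val x) (h'.val x)⟩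

theorem Dev.md_comp (h : Dev g U f K φ V) (A : E3 ≃L[ℝ] E3) (hx : A x ∈ V) :
    md E3 (φ ∘ A) x = md E3 φ (A x) ∘L (A : E3 →L[ℝ] E3) := by
  rw [P216R.md_comp (h.ld.md hx) (SM.md A.contDiff.contMDiff.contMDiffAt), md_model, A.fderiv]

theorem Dev.comp (h : Dev g U f K φ {0}ᶜ) (A : E3 ≃L[ℝ] E3)
    (hA : ∀ v w, ⟪A v, A w⟫_ℝ = ⟪v, w⟫_ℝ) : Dev g U f K (φ ∘ A) {0}ᶜ := by
  have h1 : MapsTo A {0}ᶜ {0}ᶜ := fun x hx h0 => hx (A.map_eq_zero_iff.1 h0)
  refine ⟨h.ld.comp (ld_model isOpen_compl_singleton A.contDiff.contDiffOn fun x _ => by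
    rw [A.fderiv]; exact A.injective) h1, h.maps.comp h1, fun x hx v w => ?_, fun x hx => ?_⟩
  · rw [comap_apply, h.md_comp A (h1 hx), ← hA, ← h.iso _ (h1 hx)]; rfl
  · rw [← real_inner_self_eq_norm_sq, ← hA, real_inner_self_eq_norm_sq]; exact h.val _ (h1 hx)

/-- the metric in the developing chart -/
theorem Dev.comap_eq (h : Dev g U f K φ V) (hx : x ∈ V) :
    comap φ g x = (K * ‖x‖ ^ 2)⁻¹ • (innerSL ℝ : Bil E3) := by
  ext v w
  rw [← h.val x hx, smul_apply, smul_apply, innerSL_apply_apply, ← h.iso x hx, smul_eq_mul,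
    eq_inv_mul_iff_mul_eq₀ (Real.exp_pos _).ne']
  rfl

namespace Rnd

variable (h : Rnd g U f K)
include h

theorem unique (hφ : Dev g U f K φ {0}ᶜ) (hψ : Dev g U f K ψ {0}ᶜ) (hx : x ≠ 0) (h1 : φ x = ψ x)
    (h2 : md E3 φ x = md E3 ψ x) (hy : y ≠ 0) : φ y = ψ y := by
  obtain ⟨n, h3, h4, -⟩ := exists_orth x x
  refine hs_eq_of_frequently h.hs (hφ.ld.continuousAt hy) (hψ.ld.continuousAt hy) (hφ.maps hy)
    (hψ.maps hy) ((freq_ne h3 y).mono fun z hz => ?_)
  rw [h.eq_expo hφ (mem_vis hx h4 hz), h.eq_expo hψ (mem_vis hx h4 hz), h1, h2]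

theorem exists_dev (hL : Frm g U f K a p L) :
    ∃ φ, Dev g U f K φ {0}ᶜ ∧ φ p = a ∧ md E3 φ p = L := by
  classical
  have hp : p ≠ 0 := fun h0 => (Real.exp_pos _).ne' (hL.val.trans (by simp [h0]))
  obtain ⟨q, hq, h1, -⟩ := exists_orth p p
  obtain ⟨n, hn, h2, h3⟩ := exists_orth p q
  obtain ⟨d1, e1, e2⟩ := h.dev_pol hL
  have hqp : q ∈ vis p := mem_vis hp h1 (inner_self_eq_zero (𝕜 := ℝ).not.2 hq)
  obtain ⟨L', hL', e3⟩ := h.frm_of d1 hqp
  obtain ⟨d2, -, -⟩ := h.dev_pol hL'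
  have he : ∀ x ∈ vis p, x ∈ vis q → pol g U f a p L x = pol g U f (pol g U f a p L q) q L' x :=
    fun x x1 x2 => hs_eq_of_frequently h.hs (d1.ld.continuousAt x1) (d2.ld.continuousAt x2)
      (d1.maps x1) (d2.maps x2) ((freq_ne hn x).mono fun z hz => by
        rw [h.eq_expo d1 (x := q) (y := z) fun t _ => ?_, e3]
        · rfl
        · rcases eq_or_ne t 0 with rfl | ht
          · simpa using hqp
          · exact mem_vis hp h2 (by
              simpa [inner_add_right, real_inner_smul_right, inner_sub_right, h3, ht] using hz))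
  let φ : E3 → M := fun x =>
    if x ∈ vis p then pol g U f a p L x else pol g U f (pol g U f a p L q) q L' x
  have f1 : EqOn φ (pol g U f a p L) (vis p) := fun x hx => if_pos hx
  have f2 : EqOn φ (pol g U f (pol g U f a p L q) q L') (vis q) := fun x hx => by
    by_cases hx' : x ∈ vis p
    · rw [f1 hx', he x hx' hx]
    · exact if_neg hx'
  have hu : vis p ∪ vis q = {0}ᶜ := by
    refine Subset.antisymm (union_subset (fun x hx => ?_) fun x hx => ?_) fun x hx => ?_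
    · simpa using hx 1 ⟨zero_le_one, le_rfl⟩
    · simpa using hx 1 ⟨zero_le_one, le_rfl⟩
    · by_cases h4 : ⟪q, x⟫_ℝ = 0
      · refine Or.inr fun t _ h0 => ?_
        have := congrArg (fun z => ⟪q, z⟫_ℝ) h0
        simp only [inner_add_right, real_inner_smul_right, inner_sub_right, h4,
          inner_zero_right] at this
        have h5 : t = 1 := by
          have := real_inner_self_pos.2 hq
          nlinarith
        exact hx (by simpa [h5] using h0)
      · exact Or.inl (mem_vis hp h1 h4)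
  have hpp : p ∈ vis p := fun t _ => by simpa using hp
  exact ⟨φ, hu ▸ (d1.congr f1).union (d2.congr f2), (f1 hpp).trans e1,
    (md_congr (f1.eventuallyEq_of_mem (d1.ld.isOpen.mem_nhds hpp))).trans e2⟩

theorem surj (hc : IsPreconnected U) (hφ : Dev g U f K φ {0}ᶜ) : φ '' {0}ᶜ = U := by
  have h0 : eb 0 ∈ ({0}ᶜ : Set E3) := fun h => by simpa [eb] using congrArg (fun z : E3 => z 0) h
  refine Subset.antisymm hφ.maps.image_subset (hc.subset_of_closure_inter_subset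
    (hφ.ld.isOpen_image hφ.ld.isOpen Subset.rfl) ⟨_, hφ.maps h0, _, h0, rfl⟩ ?_)
  rintro z ⟨z1, z2⟩
  by_contra hz
  have c : ContinuousAt (fun y => Real.exp (2 * f y)) z := by
    have h1 : ContinuousAt (rd E3 f z ∘ chartAt E3 z) z :=
      ContinuousAt.comp (dAt (h.par z).met (h.par z).sm (pt_mem_dom z2)).continuousAt
        ((chartAt E3 z).continuousAt (mem_chart_source E3 z))
    have h2 : ContinuousAt f z := h1.congr
      (((chartAt E3 z).eventually_left_inverse (mem_chart_source E3 z)).mono fun y hy =>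
        congrArg f hy)
    fun_prop
  have e := Real.exp_pos (2 * f z)
  let A : Set E3 := (fun x => K * ‖x‖ ^ 2) ⁻¹' Icc (Real.exp (2 * f z) / 2) (2 * Real.exp (2 * f z))
  have a1 : A ⊆ {0}ᶜ := fun x hx h0 => by
    have := hx.1
    rw [mem_singleton_iff.1 h0] at this
    norm_num at this
    linarith
  have a2 : IsCompact A := Metric.isCompact_of_isClosed_isBounded
    (isClosed_Icc.preimage (by fun_prop)) ((Metric.isBounded_closedBall (x := (0 : E3))
      (r := √(2 * Real.exp (2 * f z) / K))).subset fun x hx => mem_closedBall_zero_iff.2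
        (Real.le_sqrt_of_sq_le ((le_div_iff₀' h.pos).2 hx.2)))
  obtain ⟨y, ⟨x, x1, rfl⟩, y1, y2⟩ := ((mem_closure_iff_frequently.1 z1).and_eventually
    (Eventually.and (h.hs.compl_mem (a2.image_of_continuousOn (hφ.ld.smooth.continuousOn.mono a1))
      (hφ.maps.mono_left a1).image_subset z2 fun hy => hz (image_mono a1 hy))
      (c.eventually (Icc_mem_nhds (half_lt_self e) (lt_two_mul_self e))))).exists
  exact y1 ⟨x, by rwa [hφ.val x x1] at y2, rfl⟩

theorem eq_id (hφ : Dev g U f K φ {0}ᶜ) (A : E3 ≃L[ℝ] E3) (hA : ∀ z ≠ 0, φ (A z) = φ z)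
    (hx : x ≠ 0) (h1 : A x = x) (w : E3) : A w = w := by
  have h2 := hφ.md_comp A (x := x) (by rwa [h1])
  rw [md_congr (f := φ ∘ A) (f' := φ) ((isOpen_compl_singleton.eventually_mem hx).mono hA),
    h1] at h2
  exact (hφ.ld.inj x hx (DFunLike.congr_fun h2 w)).symm

theorem inj (hφ : Dev g U f K φ {0}ᶜ) (hx : x ≠ 0) (hy : y ≠ 0) (he : φ x = φ y) :
    y = x ∨ (y = -x ∧ ∀ z ≠ 0, φ (-z) = φ z) := by
  obtain ⟨L, hL, e1⟩ := h.frm_of hφ hx
  obtain ⟨L', hL', e2⟩ := h.frm_of hφ hy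
  let A := L.trans L'.symm
  have a0 : ∀ v, L' (A v) = L v := fun v => L'.apply_symm_apply _
  have a1 : ∀ v w, ⟪A v, A w⟫_ℝ = ⟪v, w⟫_ℝ := fun v w => by
    rw [← hL'.iso, a0, a0, ← he, hL.iso]
  have a2 : A x = y := ext_inner_right ℝ fun w => by
    rw [← A.apply_symm_apply w, a1]
    refine mul_left_cancel₀ h.pos.ne' ?_
    rw [← hL.der, ← hL'.der, a0, he]
  have a3 : ∀ z ≠ 0, φ (A z) = φ z := fun z hz => h.unique (hφ.comp A a1) hφ hx
    (by rw [Function.comp_apply, a2, he]) (by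
      rw [hφ.md_comp A (by rwa [a2]), a2, e1, e2]; ext1 v; exact a0 v) hz
  obtain ⟨z, z1, z2⟩ := exists_fixed A a1
  have a4 := h.eq_id hφ (A.trans A) (fun z hz =>
    (a3 _ fun h0 => hz (A.map_eq_zero_iff.1 h0)).trans (a3 z hz)) z1 z2
  by_cases a5 : ∀ w, A w = -w
  · exact Or.inr ⟨a2.symm.trans (a5 x), fun z hz => a5 z ▸ a3 z hz⟩
  · obtain ⟨w, hw⟩ := not_forall.1 a5
    exact Or.inl (a2.symm.trans (h.eq_id hφ A a3 (x := A w + w)
      (fun h0 => hw (eq_neg_of_add_eq_zero_left h0))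
      (by rw [map_add, add_comm]; exact congrArg _ (a4 w)) x))

end Rnd

end Vale.Agent.P216CY
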