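import Vale.Agent.P216CY.Diam
import Vale.Agent.P216K.Defs
import Vale.Agent.P216K.Stm
import Vale.Agent.P216FL.Inv
import Vale.Agent.P216R.Bridge

/-!
# P216CY: split kappa solutions are round (reduction to the closed case)
-/

open scoped Manifold ContDiff Topology
open Set Filter MeasureTheory

set_option maxSynthPendingDepth 3
set_option linter.unusedSectionVars false

noncomputable section

namespace Vale.Agent.P216CY

open Vale.Agent.P219.RG Vale.Agent.P216R Vale.Agent.P216CP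
open Vale.Agent.P216DC (Spl KS UNI RND)
open Vale.Agent.P216FL (Et)

variable {M : Type} [TopologicalSpace M] [ChartedSpace E3 M] [IsManifold 𝓘(ℝ, E3) ∞ M]
  {N : Type} [TopologicalSpace N] [ChartedSpace E3 N] [IsManifold 𝓘(ℝ, E3) ∞ N]
  {g k : Ten E3 M} {U : Set M} {b : M → ℝ} {x : M}

/-- splittings pull back -/
theorem spl_comap (hg : Met g U) (hb : Spl g U b) {f : N → M} {V : Set N} (hf : LD E3 f V)
    (hm : MapsTo f V U) {h : Ten E3 N} (he : EqOn h (comap f g) V) : Spl h V (b ∘ f) := by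
  have s : ∀ x ∈ U, ContDiffAt ℝ ∞ (rd E3 b x) (pt E3 x) := fun x hx =>
    contMDiffAt_iff_rd.1 (hb.smooth.contMDiffAt (hg.isOpen.mem_nhds hx))
  have l : ∀ y ∈ V, LI h g f y := fun y hy =>
    ⟨⟨U, hg, hm hy⟩, ⟨V, hf, hy⟩, he.eventuallyEq_of_mem (hf.isOpen.mem_nhds hy)⟩
  refine ⟨hb.smooth.comp hf.smooth hm, fun y hy => ?_, fun y hy => ?_⟩
  · rw [(l y hy).hess ((s _ (hm hy)).of_le two_le_infty)]
    ext v w
    rw [comap_apply, hb.hess _ (hm hy)]
    rfl
  · have d := (s _ (hm hy)).differentiableAt (by simp)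
    rw [(l y hy).gam d d, hb.unit _ (hm hy)]

namespace Spc

variable (h : Spc g U b)

theorem cont' (h : Spc g U b) (hx : x ∈ U) (s : ℝ) :
    ContinuousAt (fun p : ℝ × M => tr g U b p.1 p.2) (s, x) := by
  have c := (chartAt E3 x).continuousAt (mem_chart_source E3 x)
  refine ((h.cont (pt_mem_dom hx) s).comp_of_eq (f := fun p : ℝ × M => (p.1, chartAt E3 x p.2))
    (continuousAt_fst.prodMk (c.comp_of_eq continuousAt_snd rfl)) rfl).congr ?_
  filter_upwards [(continuousAt_snd (p := (s, x))).eventually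
    ((chartAt E3 x).eventually_left_inverse (mem_chart_source E3 x))] with p hp
  exact congrArg _ hp

theorem lh (h : Spc g U b) : IsLocalHomeomorph (Subtype.val : U → M) :=
  h.met.isOpen.isOpenEmbedding_subtypeVal.isLocalHomeomorph

/-- the open set as a manifold -/
abbrev Y : Type := Up h.lh

/-- the inclusion -/
abbrev pr : h.Y → M := Up.pr h.lh

theorem pr_mem (y : h.Y) : h.pr y ∈ U := y.2

theorem pr_ld : LD E3 h.pr univ := Up.ld h.lh

/-- the translations of the open set -/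
def up (s : ℝ) (y : h.Y) : h.Y := ⟨tr g U b s y.1, h.mem y.2 s⟩

theorem up_zero (y : h.Y) : h.up 0 y = y := Subtype.ext (h.zero _)

theorem up_add (s t : ℝ) (y : h.Y) : h.up t (h.up s y) = h.up (t + s) y :=
  Subtype.ext (h.add y.2 s t)

theorem up_val (s : ℝ) (y : h.Y) : b (h.pr (h.up s y)) = b (h.pr y) + s := h.val y.2 s

theorem up_cont : Continuous fun p : ℝ × h.Y => h.up p.1 p.2 :=
  Continuous.subtype_mk (continuous_iff_continuousAt.2 fun p => (h.cont' p.2.2 p.1).comp_of_eq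
    (f := fun p : ℝ × h.Y => (p.1, p.2.1))
    (continuous_fst.prodMk (continuous_subtype_val.comp continuous_snd)).continuousAt rfl) _

theorem up_sm (s : ℝ) (y : h.Y) : SM E3 (h.up s) y :=
  Up.sm_of_pr h.lh (h.up_cont.comp (Continuous.prodMk_right s)).continuousAt
    (ContMDiffAt.comp (f := h.pr) y (h.sm y.2 s) (h.pr_ld.sm trivial))

theorem b_cont : Continuous fun y : h.Y => b (h.pr y) := h.spl.smooth.continuousOn.domRestrict

/-- the orbits of the translation by one -/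
def orb : Setoid h.Y where
  r a c := ∃ n : ℤ, h.up n a = c
  iseqv := by
    refine ⟨fun a => ⟨0, by rw [Int.cast_zero, h.up_zero]⟩, ?_, ?_⟩
    · rintro a _ ⟨n, rfl⟩
      exact ⟨-n, by rw [h.up_add, Int.cast_neg, neg_add_cancel, h.up_zero]⟩
    · rintro a _ _ ⟨n, rfl⟩ ⟨m, rfl⟩
      exact ⟨m + n, by rw [h.up_add, Int.cast_add]⟩

/-- the quotient by the translation by one -/
def et : Et E3 h.Y where
  s := h.orb
  inj := fun y => by
    refine ⟨{a | |b (h.pr a) - b (h.pr y)| < 1 / 2},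
      (isOpen_lt (h.b_cont.sub continuous_const).abs continuous_const).mem_nhds (by simp), ?_⟩
    rintro a ha _ hc ⟨n, rfl⟩
    rw [mem_ofPred_eq, abs_lt] at ha hc
    rw [h.up_val] at hc
    have h1 : |n| < 1 := by
      have : |(n : ℝ)| < 1 := abs_lt.2 ⟨by linarith, by linarith⟩
      exact_mod_cast this
    rw [Int.abs_lt_one_iff.1 h1, Int.cast_zero, h.up_zero]
  dif := by
    rintro a _ ⟨n, rfl⟩
    exact ⟨h.up n, rfl, h.up_sm n a, Eventually.of_forall fun x => h.orb.symm ⟨n, rfl⟩⟩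

theorem t2 : T2Space h.et.Q := by
  have := h.hs.t2
  have c : Continuous fun p : h.Y × h.Y => b (h.pr p.2) - b (h.pr p.1) :=
    (h.b_cont.comp continuous_snd).sub (h.b_cont.comp continuous_fst)
  refine h.et.t2 ?_
  convert (Int.isClosedEmbedding_coe_real.isClosed_range.preimage c).inter
    (isClosed_eq (h.up_cont.comp (c.prodMk continuous_fst)) continuous_snd) using 1
  ext ⟨a, d⟩
  constructor
  · rintro ⟨n, e⟩
    obtain rfl : h.up n a = d := e
    exact ⟨⟨n, by simp [h.up_val]⟩, by simp [h.up_val]⟩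
  · rintro ⟨⟨n, hn⟩, e⟩
    exact ⟨n, by rw [hn]; exact e⟩

theorem compact (hx : x ∈ U) {D : ℝ} (hD : ∀ y ∈ U, b x = b y → y ∈ cbl g U x D) (h0 : 0 ≤ D) :
    IsCompact (univ : Set h.et.Q) := by
  have k : IsCompact (h.pr ⁻¹' cbl g U x (D + 1)) :=
    Topology.IsInducing.subtypeVal.isCompact_preimage' (h.cpl x hx _)
      (by rw [Subtype.range_coe]; exact cbl_subset)
  convert k.image h.et.pr_cont
  refine (eq_univ_of_forall fun q => ?_).symm
  obtain ⟨a, rfl⟩ := h.et.pr_surj q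
  set s := b (h.pr a) - b x with hs
  refine ⟨h.up (Int.fract s) (h.up (-s) a), cbl_add h0 zero_le_one
    (hD _ (h.pr_mem _) (by rw [h.up_val, hs]; ring)) ((h.ed_le (h.pr_mem _) _).trans
      (ENNReal.ofReal_le_ofReal ?_)), h.et.pr_eq.2 ⟨⌊s⌋, ?_⟩⟩
  · rw [abs_of_nonneg (Int.fract_nonneg s)]
    exact (Int.fract_lt_one s).le
  · rw [h.up_add, h.up_add, Int.floor_add_fract, add_neg_cancel, h.up_zero]

/-- the metric on the quotient -/
def dn (k : Ten E3 M) : Ten E3 h.et.Q := h.et.dn (comap h.pr k)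

theorem comap_dn (hk : ∀ x ∈ U, ∀ s, comap (tr g U b s) k x = k x) :
    comap h.et.pr (h.dn k) = comap h.pr k := funext fun a => h.et.comap_dn <| by
  rintro _ ⟨n, rfl⟩
  refine ⟨h.up n, rfl, h.up_sm n a, Eventually.of_forall fun x => h.orb.symm ⟨n, rfl⟩, ?_⟩
  rw [comap_comp k (h.pr_ld.md trivial) (h.up_sm n a).md,
    ← comap_congr_right h.pr (hk _ (h.pr_mem a) n),
    comap_comp k (h.sm (h.pr_mem a) n).md (h.pr_ld.md trivial)]
  rfl

end Spc

theorem rnd (hU : UNI) (h2 : P216K.RND2) (hS : P216K.S2) : RND := by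
  intro M _ _ _ _ _ κ g U b hκ H hb0 t ht x hx y hy
  obtain ⟨C, D, hC⟩ := uni_sc hU hκ
  have hb := hS M g U b H.toAnc hb0
  have h : Spc (g 0) U b := ⟨H.met le_rfl, H.hs, H.cpl 0 le_rfl, hb0⟩
  have li : ∀ t ≤ 0, ∀ x ∈ U, ∀ s, LI (g t) (g t) (tr (g 0) U b s) x := fun t ht x hx s =>
    h.li (H.met ht) (hb t ht) (grad_rf H.rf (convex_Iic 0) hb (mem_Iic.2 le_rfl) ht) hx s
  have lv := fun t (ht : t ≤ 0) x y =>
    level (x := x) (y := y) (H.met ht) H.hs (H.cpl t ht) (hb t ht) H.conn (hC M g U H t ht).1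
  have e : ∀ t ≤ 0, comap h.et.pr (h.dn (g t)) = comap h.pr (g t) := fun t ht =>
    h.comap_dn fun x hx s => (li t ht x hx s).iso.self_of_nhds.symm
  have rf : RF (fun t => h.dn (g t)) (Iic 0) univ := by
    have := rf_of_comap (g := fun t => h.dn (g t)) h.et.ld_pr
      ((H.rf.comap h.pr_ld fun y _ => h.pr_mem y).congr fun t ht y _ => congrFun (e t ht) y)
    rwa [image_univ, h.et.pr_surj.range_eq] at this
  have l1 := fun t (ht : t ≤ 0) a => li_comap (H.met ht) h.pr_ld (mem_univ a) (h.pr_mem a)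
  have l2 := fun t (ht : t ≤ 0) a =>
    e t ht ▸ li_comap (rf.met ht) h.et.ld_pr (mem_univ a) (mem_univ _)
  have sc : ∀ t ≤ 0, ∀ a, Sc (h.dn (g t)) (h.et.pr a) = Sc (g t) (h.pr a) := fun t ht a =>
    (l2 t ht a).Sc.symm.trans (l1 t ht a).Sc
  have := h.t2
  have := h2 h.et.Q (fun t => h.dn (g t)) univ (max (C (65 * C 1) ^ 2) (max (D 1) (D 2)))
    (h.compact hx (fun y hy e => (mem_cbl_iff (by positivity)).2
      ⟨H.ed_ne le_rfl hx hy, (lv 0 le_rfl x y hx hy e).2.trans (le_abs_self _)⟩) (abs_nonneg _))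
    (hs_of_t2 _) (by
      rw [← h.et.pr_surj.range_eq, ← image_univ]
      exact (Subtype.preconnectedSpace H.conn).isPreconnected_univ.image _ h.et.pr_cont.continuousOn)
    rf ?_ ?_ ?_ ?_ t ht (h.et.pr ⟨x, hx⟩) trivial (h.et.pr ⟨y, hy⟩) trivial
  · exact (sc t ht ⟨x, hx⟩).symm.trans (this.trans (sc t ht ⟨y, hy⟩))
  · intro q _
    obtain ⟨a, rfl⟩ := h.et.pr_surj q
    obtain ⟨k, V, k1, k2, -, k3, k4⟩ := h.et.ld_pr.exists_local_inv (mem_univ a)
    refine ⟨V, subset_univ _, k1.isOpen, k2, b ∘ h.pr ∘ k, fun t ht => spl_comap (H.met ht) (hb t ht)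
      (h.pr_ld.comp k1 k3) (fun z _ => h.pr_mem _) fun z hz => ?_⟩
    rw [← comap_comp _ (h.pr_ld.md trivial) (k1.md hz), ← e t ht, comap_inv _ (k1.md hz)
      (h.et.ld_pr.md trivial) ((k1.isOpen.eventually_mem hz).mono k4)]
  · intro t ht q _
    obtain ⟨a, rfl⟩ := h.et.pr_surj q
    rw [sc t ht]
    exact H.pos t ht _ (h.pr_mem a)
  · intro t ht q _ r _
    obtain ⟨a, rfl⟩ := h.et.pr_surj q
    obtain ⟨c, rfl⟩ := h.et.pr_surj r
    rw [sc t ht, sc t ht]
    have := (lv t ht _ _ (h.pr_mem a) (h.mem (h.pr_mem c) (b (h.pr a) - b (h.pr c)))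
      (by rw [h.val (h.pr_mem c)]; ring)).1
    rw [← (li t ht _ (h.pr_mem c) _).Sc] at this
    exact this.trans
      (mul_le_mul_of_nonneg_right (le_max_left _ _) (H.pos t ht _ (h.pr_mem c)).le)
  · intro t ht q _
    obtain ⟨a, rfl⟩ := h.et.pr_surj q
    have r := (hC M g U H t ht).2 _ (h.pr_mem a)
    have p := (H.pos t ht _ (h.pr_mem a)).le
    rw [sc t ht, ← (l2 t ht a).RmB, ← (l2 t ht a).RmB, (l1 t ht a).RmB, (l1 t ht a).RmB]
    refine ⟨P216BF.rmB_mono (r 1) ?_, P216BF.rmB_mono (r 2) ?_⟩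
    · rw [mul_comm]
      exact mul_le_mul_of_nonneg_right ((le_max_left _ _).trans (le_max_right _ _)) (by positivity)
    · rw [mul_comm, show 2 + 2 = 2 * 2 from rfl, pow_mul, Real.sq_sqrt p]
      exact mul_le_mul_of_nonneg_right ((le_max_right _ _).trans (le_max_right _ _)) (by positivity)

end Vale.Agent.P216CY
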