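import Vale.Agent.P216CY.Rnd
import Vale.Agent.P216KV.Main
import Vale.Agent.P216RD.Main
import Vale.Agent.P216GM.Model
import Vale.Agent.P216ST.Heat
import Vale.Agent.P216MP.Exp

/-!
# P216CY: split kappa solutions are round, with the closed case plugged in
-/

namespace Vale.Agent.P216CY

theorem rnd2 : P216K.RND2 :=
  P216KV.rnd2 (P216RD.k1a P216GM.model (P216ST.heat _) (P216ST.heati _))

theorem rnd_uni (hU : P216DC.UNI) (hS : P216K.S2) : P216DC.RND := rnd hU rnd2 hS

theorem rnd_of_uni (hU : P216DC.UNI) : P216DC.RND := rnd_uni hU P216MP.s2K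

end Vale.Agent.P216CY
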